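import Vale.Agent.P307.R2.H68.SatB
import Vale.Agent.P307.R2.H541.Free

/-!
Closed sets of a saturated member: every small piece of a strong submodel `A` can be moved into
`A ∩ H` over small pieces of `H`, for all closed `H`.
-/

set_option linter.unusedSectionVars false

universe u

open FirstOrder Cardinal Set

namespace Vale.Agent.P307.R2.H68

open Vale.Agent.P307 Vale.Agent.P307.H304 Vale.Agent.P307.R2.H287 Vale.Agent.P307.R2.H1
  Vale.Agent.P307.R2.H806 Vale.Agent.P307.R2.H971 Vale.Agent.P307.R2.H541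
  Language.Structure Language.Substructure

variable {L : Language.{u, u}} {K : AEC L} {ℓ θ : Cardinal.{u}}
  {κf α : Cardinal.{u} → Cardinal.{u}} {C : Type u} [L.Structure C]

/-- `H` is closed under the finitary operation `φ`. -/
def Clo (φ : Finset C → Set C) (H : Set C) : Prop :=
  ∀ s : Finset C, (s : Set C) ⊆ H → φ s ⊆ H

theorem Clo.mono {φ ψ : Finset C → Set C} {H : Set C} (h : Clo ψ H) (hφ : ∀ s, φ s ⊆ ψ s) :
    Clo φ H := fun s hs => (hφ s).trans (h s hs)

/-- Directed unions of closed sets are closed. -/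
theorem Clo.iUnion {φ : Finset C → Set C} {ι : Type*} [Nonempty ι] {H : ι → Set C}
    (hH : Directed (· ≤ ·) H) (h : ∀ i, Clo φ (H i)) : Clo φ (⋃ i, H i) := by
  classical
  intro s hs
  have h1 : ∃ i, (s : Set C) ⊆ H i := by
    clear h
    induction s using Finset.induction_on with
    | empty => exact ⟨Classical.arbitrary ι, by simp⟩
    | insert a s ha ih =>
      obtain ⟨i, hi⟩ := ih fun x hx => hs (by simp [Finset.mem_coe.1 hx])
      obtain ⟨j, hj⟩ := mem_iUnion.1 (hs (Finset.mem_coe.2 (Finset.mem_insert_self a s)))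
      obtain ⟨k, hik, hjk⟩ := hH i j
      refine ⟨k, fun x hx => ?_⟩
      rcases Finset.mem_insert.1 (Finset.mem_coe.1 hx) with rfl | hx
      · exact hjk hj
      · exact hik (hi hx)
  obtain ⟨i, hi⟩ := h1
  exact (h i s hi).trans (subset_iUnion H i)

/-- Closures. -/
theorem exists_clo {φ : Finset C → Set C} {χ : Cardinal.{u}} (hχ : ℵ₀ ≤ χ)
    (hφ : ∀ s, #(φ s) ≤ χ) (X : Set C) (hX : #X ≤ χ) : ∃ H, Clo φ H ∧ X ⊆ H ∧ #H ≤ χ := by
  classical
  let st : Set C → Set C := fun Y => Y ∪ ⋃ s : {s : Finset C // (s : Set C) ⊆ Y}, φ s.1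
  have hst : ∀ Y : Set C, #Y ≤ χ → #(st Y) ≤ χ := by
    intro Y hY
    refine (mk_union_le _ _).trans (add_le_of_le hχ hY ?_)
    refine (mk_iUnion_le _).trans ?_
    refine (mul_le_mul' ?_ (ciSup_le' fun (s : {s : Finset C // (s : Set C) ⊆ Y}) => hφ s.1)).trans
      (mul_eq_self hχ).le
    have h1 : #{s : Finset C // (s : Set C) ⊆ Y} ≤ #(Finset Y) := by
      refine mk_le_of_injective (f := fun s => s.1.subtype (· ∈ Y)) ?_
      intro s s' h
      apply Subtype.ext
      have h2 := congrArg (Finset.map (Function.Embedding.subtype (· ∈ Y))) h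
      simp only [Finset.subtype_map] at h2
      rwa [Finset.filter_true_of_mem fun x hx => s.2 hx,
        Finset.filter_true_of_mem fun x hx => s'.2 hx] at h2
    refine h1.trans ?_
    rcases lt_or_ge #Y ℵ₀ with h | h
    · have : Finite Y := lt_aleph0_iff_finite.1 h
      have : Fintype Y := Fintype.ofFinite Y
      exact (lt_aleph0_of_finite _).le.trans hχ
    · have : Infinite Y := infinite_iff.2 h
      rw [mk_finset_of_infinite]
      exact hY
  let Y : ℕ → Set C := fun n => Nat.rec X (fun _ Z => st Z) n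
  have hY : ∀ n, Y (n + 1) = st (Y n) := fun n => rfl
  have hYm : Monotone Y := monotone_nat_of_le_succ fun n => by
    rw [hY]
    exact subset_union_left
  have hYc : ∀ n : ℕ, #↥(Y n) ≤ χ := by
    intro n
    induction n with
    | zero => exact hX
    | succ n ih =>
      rw [hY]
      exact hst _ ih
  refine ⟨⋃ n, Y n, ?_, subset_iUnion Y 0, ?_⟩
  · intro s hs
    have h1 : ∃ n, (s : Set C) ⊆ Y n := by
      induction s using Finset.induction_on with
      | empty => exact ⟨0, by simp⟩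
      | insert a s ha ih =>
        obtain ⟨i, hi⟩ := ih fun x hx => hs (by simp [Finset.mem_coe.1 hx])
        obtain ⟨j, hj⟩ := mem_iUnion.1 (hs (Finset.mem_coe.2 (Finset.mem_insert_self a s)))
        refine ⟨max i j, fun x hx => ?_⟩
        rcases Finset.mem_insert.1 (Finset.mem_coe.1 hx) with rfl | hx
        · exact hYm (le_max_right _ _) hj
        · exact hYm (le_max_left _ _) (hi hx)
    obtain ⟨n, hn⟩ := h1
    refine subset_trans ?_ (subset_iUnion Y (n + 1))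
    rw [hY]
    exact fun x hx => Or.inr (mem_iUnion.2 ⟨⟨s, hn⟩, hx⟩)
  · have h1 : #(⋃ n : ULift.{u} ℕ, Y n.down) ≤ χ := by
      refine (mk_iUnion_le _).trans ?_
      refine (mul_le_mul' ?_ (ciSup_le' fun (n : ULift.{u} ℕ) => hYc n.down)).trans (mul_eq_self hχ).le
      rw [mk_uLift, mk_nat, lift_aleph0]
      exact hχ
    have h2 : (⋃ n, Y n) = ⋃ n : ULift.{u} ℕ, Y n.down := by
      ext x
      simp
    rwa [h2]

section

variable (h₀ : BasePt K ℓ κf α θ) (hK : K.IsLS ℓ)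
  (hunb : ∀ ν, ν < κf ν ∧ K.CategoricalIn (κf ν)) (hst : Stab K ℓ α (H287.thr κf))
  (hCm : K.mem C) (hs : Sat K θ C) (hCc : #C = Order.succ θ)

include h₀ hK hunb hst hCm hs hCc

/-- The shift by automorphisms of `C`, for a strong embedding of an EM model over `Ω ×ₗ Blk σ`. -/
theorem exists_shift_aut {σ : Cardinal.{u}} (hσ : ℓ ≤ σ) (hσθ : σ < θ) {t : Tpl K ℓ} {Ω : Type u}
    [LinearOrder Ω] [WellFoundedLT Ω] (F : EM t (Ω ×ₗ Blk σ)) (hF : θ ≤ #F.N)
    (e : F.N ↪[L] C) (he : K.Emb e) (G : Set Ω) {ι ζ : Type u} (hι : #ι ≤ σ) (hζ : #ζ ≤ σ)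
    (S : ι → Set Ω) (hS : ∀ i, ∀ x ∈ S i, ∃ g ∈ S i, IsLeast {g | g ∈ G ∧ x ≤ g} g)
    (m : ζ → F.N) (hm : ∀ j, m j ∈ hull F (part G))
    (r : ι → F.N) (hr : ∀ i, r i ∈ hull F (part (S i))) :
    ∃ g ∈ autG L C, (∀ j, g (e (m j)) = e (m j)) ∧
      ∀ i, ∃ x ∈ hull F (part (S i ∩ G)), g (e (r i)) = e x := by
  have hσ0 : ℵ₀ ≤ σ := hK.1.trans hσ
  have hσα : σ ≤ α σ := (hst σ hσ).1
  have hthr : H287.thr κf (α σ) ≤ #F.N := (h₀.pt.thr _ (h₀.al σ hσθ)).le.trans hF
  obtain ⟨r', h1, h2⟩ := exists_shift_hull hK hunb hσ hσα F hthr G hι hζ S hS m hm r hr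
  have hc : #(ζ ⊕ ι) ≤ σ := by
    rw [mk_sum, lift_id, lift_id]
    exact (add_le_add hζ hι).trans (add_eq_self hσ0).le
  have h3 := EqS.map_emb hK hunb (hσ.trans hσα) e he hthr (hc.trans hσα) (Sum.elim m r)
  have h4 := EqS.map_emb hK hunb (hσ.trans hσα) e he hthr (hc.trans hσα) (Sum.elim m r')
  have h5 : EqS L (α σ) (fun x => e (Sum.elim m r x)) (fun x => e (Sum.elim m r' x)) :=
    (h3.symm.trans h2).trans h4
  obtain ⟨g, hg, hg'⟩ := exists_mem_autG h₀ hK hunb hst hCm hs hCc hσ hσθ hc _ _ h5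
  exact ⟨g, hg, fun j => hg' (Sum.inl j), fun i => ⟨r' i, h1 i, hg' (Sum.inr i)⟩⟩

/-- **EC.** For every strong submodel `A` of size `θ` and every small `d` there is a finitary
closure such that for every closed `H` the sets `H` and `A ∩ H` are strong submodels, and pieces
of `A` of size `d` can be moved into `A ∩ H` over pieces of `H` of size `d`. -/
theorem exists_ec {A : Set C} (hA : A ∈ (pg h₀ hK hunb hst hCm hs hCc).S) {d : Cardinal.{u}}
    (hd : d < θ) :
    ∃ φ : Finset C → Set C, (∀ s, #(φ s) ≤ 2 ^ max ℓ d) ∧ ∀ H : Set C, Clo φ H →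
      (∃ D : L.Substructure C, K.le D ∧ (D : Set C) = H) ∧
      (∃ D : L.Substructure C, K.le D ∧ (D : Set C) = A ∩ H) ∧
      ∀ X ⊆ A, #X ≤ d → ∀ q ⊆ H, #q ≤ d →
        ∃ g ∈ autG L C, (∀ x ∈ q, g x = x) ∧ ∀ x ∈ X, g x ∈ A ∩ H := by
  classical
  have hθ := aleph0_le_pt h₀ hK
  let σ : Cardinal.{u} := max ℓ d
  have hσ : ℓ ≤ σ := le_max_left _ _
  have hdσ : d ≤ σ := le_max_right _ _
  have hσθ : σ < θ := max_lt h₀.pt.lt hd
  have hσ0 : ℵ₀ ≤ σ := hK.1.trans hσ
  have h2σ : ℵ₀ ≤ 2 ^ σ := hσ0.trans (cantor σ).le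
  obtain ⟨D, hD, hDc, rfl⟩ := hA
  obtain ⟨t⟩ := exists_tpl' hK hunb
  obtain ⟨E, e, i₀, hi₀, hDe⟩ := exists_chart h₀.ab hK h₀.pt.lt.le h₀.pt.cat
    (h₀.largeExt hK hunb _) t h₀.pt.lt.le (B := Blk σ)
    ((mk_blk hσ0).trans (h₀.pow σ hσθ).le) hs hCc D hD hDc
  -- supports
  have hsup : ∀ x : C, ∃ w : Finset (SuccTy θ ×ₗ Blk σ), e.symm x ∈ hull E (w : Set _) := by
    intro x
    have h1 : e.symm x ∈ hull E (univ : Set (SuccTy θ ×ₗ Blk σ)) := by
      change e.symm x ∈ closure (exLang L t.Λ) (E.c '' univ)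
      rw [image_univ, E.top]
      trivial
    obtain ⟨w, s, -, hs⟩ := exists_finset_term_of_mem E h1
    exact ⟨w, (mem_closure_image_iff E.c _ _).2 ⟨s, hs⟩⟩
  choose w hw using hsup
  let G₀ : Set C → Set (SuccTy θ) := fun H =>
    insert i₀ (⋃ x ∈ H, (fun j : SuccTy θ ×ₗ Blk σ => (ofLex j).1) '' (w x : Set _))
  let ψ : Set C → Set C := fun H => e '' (hull E (part (G₀ H)) : Set E.N)
  have hG₀ : ∀ s : Finset C, #(G₀ s) ≤ ℵ₀ := by
    intro s
    have h1 : (G₀ s).Finite := by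
      refine Set.Finite.insert _ ?_
      refine Set.Finite.biUnion s.finite_toSet fun x _ => ?_
      exact (w x).finite_toSet.image _
    exact h1.lt_aleph0.le
  have hsub : ∀ H : Set C, H ⊆ ψ H := by
    intro H x hx
    refine ⟨e.symm x, hull_mono E ?_ (hw x), e.apply_symm_apply x⟩
    intro j hj
    exact Or.inr (mem_biUnion hx ⟨j, hj, rfl⟩)
  have hclo : ∀ H : Set C, Clo (fun s => ψ (s : Set C)) H → H = ψ H := by
    intro H hH
    refine (hsub H).antisymm ?_
    rintro _ ⟨z, hz, rfl⟩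
    obtain ⟨v, s, hv, hs⟩ := exists_finset_term_of_mem E hz
    -- the elements of `H` responsible for the support
    have h1 : ∀ j ∈ v, ∃ x : Option C, (∀ y ∈ x, y ∈ H) ∧
        ((ofLex j).1 = i₀ ∨ ∃ y ∈ x, (ofLex j).1 ∈
          (fun j : SuccTy θ ×ₗ Blk σ => (ofLex j).1) '' (w y : Set _)) := by
      intro j hj
      rcases hv j hj with h | h
      · exact ⟨none, by simp, Or.inl h⟩
      · obtain ⟨y, hy, hy'⟩ := mem_iUnion₂.1 h
        exact ⟨some y, fun z hz => by cases hz; exact hy, Or.inr ⟨y, rfl, hy'⟩⟩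
    choose! f hf1 hf2 using h1
    let s' : Finset C := v.biUnion fun j => (f j).toFinset
    have hs' : (s' : Set C) ⊆ H := by
      intro y hy
      obtain ⟨j, hj, hy⟩ := Finset.mem_biUnion.1 (Finset.mem_coe.1 hy)
      exact hf1 j hj y (Option.mem_toFinset.1 hy)
    refine hH s' hs' ⟨z, hull_mono E ?_ ((mem_closure_image_iff E.c _ _).2 ⟨s, hs⟩), rfl⟩
    intro j hj
    rcases hf2 j hj with h | ⟨y, hy, h⟩
    · exact Or.inl h
    · refine Or.inr (mem_biUnion (x := y) ?_ h)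
      exact Finset.mem_coe.2 (Finset.mem_biUnion.2 ⟨j, hj, Option.mem_toFinset.2 hy⟩)
  have hmap : ∀ W : Set (SuccTy θ ×ₗ Blk σ), ∃ D' : L.Substructure C, K.le D' ∧
      (D' : Set C) = e '' (hull E W : Set E.N) := by
    intro W
    exact ⟨(hullL E W).map e.toHom, K.le_iso e _ (le_hullL E W), rfl⟩
  have hEc : θ ≤ #E.N := by
    rw [mk_congr e.toEquiv, hCc]
    exact Order.le_succ θ
  refine ⟨fun s => ψ s, fun s => ?_, fun H hH => ?_⟩
  · refine mk_image_le.trans ?_
    refine mk_hullL_le E (hσ.trans (cantor σ).le) ?_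
    exact mk_part_le h2σ ((hG₀ s).trans h2σ) (mk_blk hσ0)
  · have hHe := hclo H hH
    have hgood : ∀ x ∈ Iic i₀, ∃ g ∈ Iic i₀, IsLeast {g | g ∈ G₀ H ∧ x ≤ g} g := by
      intro x hx
      have hne : {g | g ∈ G₀ H ∧ x ≤ g}.Nonempty := ⟨i₀, Or.inl rfl, hx⟩
      refine ⟨wellFounded_lt.min _ hne, ?_, wellFounded_lt.min_mem _ _, fun y hy =>
        not_lt.1 (wellFounded_lt.not_lt_min _ hy)⟩
      exact (not_lt.1 (wellFounded_lt.not_lt_min _ (show i₀ ∈ {g | g ∈ G₀ H ∧ x ≤ g} from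
        ⟨Or.inl rfl, hx⟩)))
    have key : ∀ X ⊆ (D : Set C), #X ≤ σ → ∀ q ⊆ H, #q ≤ σ →
        ∃ g ∈ autG L C, (∀ x ∈ q, g x = x) ∧ ∀ x ∈ X,
          g x ∈ e '' (hull E (part (Iic i₀ ∩ G₀ H)) : Set E.N) := by
      intro X hX hXc q hq hqc
      have h1 : ∀ x : X, e.symm x.1 ∈ hull E (part (Iic i₀)) := by
        intro x
        have h2 := hX x.2
        rw [hDe] at h2
        obtain ⟨z, hz, hzx⟩ := h2
        rw [← hzx, e.symm_apply_apply]
        exact hz
      have h2 : ∀ x : q, e.symm x.1 ∈ hull E (part (G₀ H)) := by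
        intro x
        have h2 := hq x.2
        rw [hHe] at h2
        obtain ⟨z, hz, hzx⟩ := h2
        rw [← hzx, e.symm_apply_apply]
        exact hz
      obtain ⟨g, hg, hg1, hg2⟩ := exists_shift_aut h₀ hK hunb hst hCm hs hCc hσ hσθ E hEc
        e.toEmbedding (AEC.Emb.of_equiv e E.mem) (G₀ H) hXc hqc (fun _ => Iic i₀)
        (fun _ => hgood) (fun x : q => e.symm x.1) h2 (fun x : X => e.symm x.1) h1
      refine ⟨g, hg, fun x hx => ?_, fun x hx => ?_⟩
      · have h3 := hg1 ⟨x, hx⟩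
        change g (e (e.symm x)) = e (e.symm x) at h3
        rwa [e.apply_symm_apply] at h3
      · obtain ⟨z, hz, hz'⟩ := hg2 ⟨x, hx⟩
        change g (e (e.symm x)) = e z at hz'
        rw [e.apply_symm_apply] at hz'
        exact ⟨z, hz, hz'.symm⟩
    have hint : (D : Set C) ∩ H = e '' (hull E (part (Iic i₀ ∩ G₀ H)) : Set E.N) := by
      apply Subset.antisymm
      · rintro x ⟨hxD, hxH⟩
        obtain ⟨g, -, hg1, hg2⟩ := key {x} (by simpa using hxD) (by
          rw [mk_singleton]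
          exact one_le_aleph0.trans hσ0) {x} (by simpa using hxH) (by
          rw [mk_singleton]
          exact one_le_aleph0.trans hσ0)
        have h1 := hg2 x rfl
        rwa [hg1 x rfl] at h1
      · rintro _ ⟨z, hz, rfl⟩
        constructor
        · rw [hDe]
          exact ⟨z, hull_mono E (part_mono inter_subset_left) hz, rfl⟩
        · rw [hHe]
          exact ⟨z, hull_mono E (part_mono inter_subset_right) hz, rfl⟩
    refine ⟨?_, ?_, ?_⟩
    · obtain ⟨D', h1, h2⟩ := hmap (part (G₀ H))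
      exact ⟨D', h1, h2.trans hHe.symm⟩
    · obtain ⟨D', h1, h2⟩ := hmap (part (Iic i₀ ∩ G₀ H))
      exact ⟨D', h1, h2.trans hint.symm⟩
    · intro X hX hXc q hq hqc
      obtain ⟨g, hg, hg1, hg2⟩ := key X hX (hXc.trans hdσ) q hq (hqc.trans hdσ)
      exact ⟨g, hg, hg1, fun x hx => by rw [hint]; exact hg2 x hx⟩

end

end Vale.Agent.P307.R2.H68
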