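import Vale.Agent.P307.R2.H68.Unif

/-!
The closures for all small sizes below a given level, and their consequences for the independence
of the traces.
-/

set_option linter.unusedSectionVars false

universe u

open FirstOrder Cardinal Set

namespace Vale.Agent.P307.R2.H68

open Vale.Agent.P307 Vale.Agent.P307.H304 Vale.Agent.P307.R2.H287 Vale.Agent.P307.R2.H1
  Vale.Agent.P307.R2.H806 Vale.Agent.P307.R2.H971 Vale.Agent.P307.R2.H541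
  Language.Structure Language.Substructure

variable {L : Language.{u, u}} {K : AEC L} {ℓ θ : Cardinal.{u}}
  {κf α : Cardinal.{u} → Cardinal.{u}} {C : Type u} [L.Structure C]

/-- A family of finitary operations, one for each cardinal below `τ`, has a common refinement. -/
theorem exists_clo_all {τ : Cardinal.{u}} (hτ : ℵ₀ ≤ τ) (hℓ : ℓ < τ)
    (hpow : ∀ ρ < τ, (2 : Cardinal.{u}) ^ ρ < τ) (Φ : Cardinal.{u} → (Finset C → Set C))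
    (hΦ : ∀ d < τ, ∀ s, #(Φ d s) ≤ 2 ^ max ℓ d) :
    ∃ φ : Finset C → Set C, (∀ s, #(φ s) ≤ τ) ∧ ∀ d < τ, ∃ d' < τ, d ≤ d' ∧
      ∀ H, Clo φ H → Clo (Φ d') H := by
  have hlt : ∀ y : τ.ord.ToType, #(Iio y) < τ := fun y => by simpa using mk_Iio_lt y
  refine ⟨fun s => ⋃ y : τ.ord.ToType, Φ #(Iio y) s, fun s => ?_, fun d hd => ?_⟩
  · refine (mk_iUnion_le _).trans ?_
    refine (mul_le_mul' ?_ (ciSup_le' fun (y : τ.ord.ToType) => ?_)).trans (mul_eq_self hτ).le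
    · rw [mk_toType, card_ord]
    · exact (hΦ _ (hlt y) s).trans (hpow _ (max_lt hℓ (hlt y))).le
  · have h1 : d.ord < Ordinal.type (α := τ.ord.ToType) (· < ·) := by
      rw [Ordinal.type_toType]
      exact ord_lt_ord.2 hd
    obtain ⟨y, hy⟩ := Ordinal.typein_surj (α := τ.ord.ToType) (· < ·) h1
    have h2 := Ordinal.card_typein (α := τ.ord.ToType) (r := (· < ·)) y
    rw [hy, card_ord] at h2
    have h3 : #(Iio y) = d := h2.symm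
    refine ⟨d, hd, le_rfl, fun H hH => hH.mono fun s => ?_⟩
    have h4 : Φ #(Iio y) s ⊆ ⋃ y : τ.ord.ToType, Φ #(Iio y) s :=
      subset_iUnion (fun y : τ.ord.ToType => Φ #(Iio y) s) y
    rw [h3] at h4
    exact h4

section

variable (h₀ : BasePt K ℓ κf α θ) (hK : K.IsLS ℓ)
  (hunb : ∀ ν, ν < κf ν ∧ K.CategoricalIn (κf ν)) (hst : Stab K ℓ α (H287.thr κf))
  (hCm : K.mem C) (hs : Sat K θ C) (hCc : #C = Order.succ θ)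

include h₀ hK hunb hst hCm hs hCc

/-- **EC for all sizes below `τ`.** -/
theorem exists_closure_all {τ : Cardinal.{u}} (hℓ : ℓ < τ) (hpow : ∀ ρ < τ, (2 : Cardinal.{u}) ^ ρ < τ)
    (hτθ : τ ≤ θ) {A : Set C} (hA : A ∈ (pg h₀ hK hunb hst hCm hs hCc).S) :
    ∃ φ : Finset C → Set C, (∀ s, #(φ s) ≤ τ) ∧
      ∀ H : Set C, Clo φ H →
        (∃ D : L.Substructure C, K.le D ∧ (D : Set C) = H) ∧
        (∃ D : L.Substructure C, K.le D ∧ (D : Set C) = A ∩ H) ∧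
        ∀ d < τ,
          (∀ X ⊆ A, #X ≤ d → ∃ q₀ ⊆ A ∩ H, #q₀ < τ ∧ ∀ q ⊆ H, #q ≤ d →
            ∃ g ∈ autG L C, (∀ x ∈ q, g x = x) ∧ ∀ x ∈ X, g x ∈ q₀) ∧
          (∀ X : Set C, #X ≤ d → ∃ q₀ ⊆ A ∩ H, #q₀ < τ ∧ ∀ q ⊆ A ∩ H, #q ≤ d →
            ∃ g ∈ autG L C, (∀ x ∈ q, g x = x) ∧ ∀ x ∈ X, g x ∈ q₀) ∧
          ∀ X : Set C, #X ≤ d → ∃ q₀ ⊆ H, #q₀ < τ ∧ ∀ q ⊆ H, #q ≤ d →
            ∃ g ∈ autG L C, (∀ x ∈ q, g x = x) ∧ ∀ x ∈ X, g x ∈ q₀ := by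
  have hτ : ℵ₀ ≤ τ := hK.1.trans hℓ.le
  have h1 : ∀ d : Cardinal.{u}, ∃ φ : Finset C → Set C, d < τ →
      (∀ s, #(φ s) ≤ 2 ^ max ℓ d) ∧ ∀ H : Set C, Clo φ H →
        (∃ D : L.Substructure C, K.le D ∧ (D : Set C) = H) ∧
        (∃ D : L.Substructure C, K.le D ∧ (D : Set C) = A ∩ H) ∧
        (∀ X ⊆ A, #X ≤ d → ∃ q₀ ⊆ A ∩ H, #q₀ ≤ 2 ^ max ℓ d ∧ ∀ q ⊆ H, #q ≤ d →
          ∃ g ∈ autG L C, (∀ x ∈ q, g x = x) ∧ ∀ x ∈ X, g x ∈ q₀) ∧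
        (∀ X : Set C, #X ≤ d → ∃ q₀ ⊆ A ∩ H, #q₀ ≤ 2 ^ max ℓ d ∧ ∀ q ⊆ A ∩ H, #q ≤ d →
          ∃ g ∈ autG L C, (∀ x ∈ q, g x = x) ∧ ∀ x ∈ X, g x ∈ q₀) ∧
        ∀ X : Set C, #X ≤ d → ∃ q₀ ⊆ H, #q₀ ≤ 2 ^ max ℓ d ∧ ∀ q ⊆ H, #q ≤ d →
          ∃ g ∈ autG L C, (∀ x ∈ q, g x = x) ∧ ∀ x ∈ X, g x ∈ q₀ := by
    intro d
    by_cases hd : d < τ
    · obtain ⟨φ, hφ⟩ := exists_closure_unif h₀ hK hunb hst hCm hs hCc hA (hd.trans_le hτθ)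
      exact ⟨φ, fun _ => hφ⟩
    · exact ⟨fun _ => ∅, fun h => absurd h hd⟩
  choose Φ hΦ using h1
  obtain ⟨φ, hφ1, hφ2⟩ := exists_clo_all hτ hℓ hpow Φ fun d hd => (hΦ d hd).1
  refine ⟨φ, hφ1, fun H hH => ?_⟩
  obtain ⟨d₀, hd₀, -, h2⟩ := hφ2 0 (aleph0_pos.trans_le hτ)
  obtain ⟨h3, h4, -⟩ := (hΦ d₀ hd₀).2 H (h2 H hH)
  refine ⟨h3, h4, fun d hd => ?_⟩
  obtain ⟨d', hd', hdd', h5⟩ := hφ2 d hd
  obtain ⟨-, -, h6, h7, h8⟩ := (hΦ d' hd').2 H (h5 H hH)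
  have h9 : (2 : Cardinal.{u}) ^ max ℓ d' < τ := hpow _ (max_lt hℓ hd')
  refine ⟨fun X hX hXc => ?_, fun X hXc => ?_, fun X hXc => ?_⟩
  · obtain ⟨q₀, a, b, c⟩ := h6 X hX (hXc.trans hdd')
    exact ⟨q₀, a, b.trans_lt h9, fun q hq hqc => c q hq (hqc.trans hdd')⟩
  · obtain ⟨q₀, a, b, c⟩ := h7 X (hXc.trans hdd')
    exact ⟨q₀, a, b.trans_lt h9, fun q hq hqc => c q hq (hqc.trans hdd')⟩
  · obtain ⟨q₀, a, b, c⟩ := h8 X (hXc.trans hdd')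
    exact ⟨q₀, a, b.trans_lt h9, fun q hq hqc => c q hq (hqc.trans hdd')⟩

/-- **Traces of independent sets** (helper392's (2)): if `B` is independent from `A` over the model
`P`, then for closed `H` all the small pieces of `B` are moved into `P ∩ H` over the small pieces of
`(P ∪ A) ∩ H`. -/
theorem exists_trace_ind {τ : Cardinal.{u}} (hℓ : ℓ < τ) (hpow : ∀ ρ < τ, (2 : Cardinal.{u}) ^ ρ < τ)
    (hτθ : τ ≤ θ) {P : Set C} (hP : P ∈ (pg h₀ hK hunb hst hCm hs hCc).S) :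
    ∃ φ : Finset C → Set C, (∀ s, #(φ s) ≤ τ) ∧ ∀ H : Set C, Clo φ H →
      (∃ D : L.Substructure C, K.le D ∧ (D : Set C) = P ∩ H) ∧
      ∀ A B : Set C, (pg h₀ hK hunb hst hCm hs hCc).Ind P A B →
        ∀ A' ⊆ (P ∪ A) ∩ H, #A' < τ → ∀ B' ⊆ B, #B' < τ →
          ∃ g ∈ autG L C, (∀ a ∈ A', g a = a) ∧ ∀ b ∈ B', g b ∈ P ∩ H := by
  have hτ : ℵ₀ ≤ τ := hK.1.trans hℓ.le
  obtain ⟨φ, h1, h2⟩ := exists_closure_all h₀ hK hunb hst hCm hs hCc hℓ hpow hτθ hP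
  refine ⟨φ, h1, fun H hH => ?_⟩
  obtain ⟨-, h3, h4⟩ := h2 H hH
  refine ⟨h3, fun A B hI A' hA' hA'c B' hB' hB'c => ?_⟩
  obtain ⟨g, hg, hg1, hg2⟩ := hI A' (hA'.trans inter_subset_left) (hA'c.trans_le hτθ) B' hB'
    (hB'c.trans_le hτθ)
  let d : Cardinal.{u} := max #A' #B'
  have hd : d < τ := max_lt hA'c hB'c
  obtain ⟨q₀, hq₀, -, h5⟩ := (h4 d hd).1 (g '' B') (by
    rintro _ ⟨b, hb, rfl⟩
    exact hg2 b hb) (mk_image_le.trans (le_max_right _ _))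
  obtain ⟨k, hk, hk1, hk2⟩ := h5 A' (hA'.trans inter_subset_right) (le_max_left _ _)
  refine ⟨k * g, mul_mem hk hg, fun a ha => ?_, fun b hb => ?_⟩
  · rw [Equiv.Perm.mul_apply, hg1 a ha, hk1 a ha]
  · rw [Equiv.Perm.mul_apply]
    exact hq₀ (hk2 _ (mem_image_of_mem _ hb))

end

end Vale.Agent.P307.R2.H68
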