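import Vale.Agent.P307.R2.H68.Ord
import Vale.Agent.P307.R2.H806.Coheir

/-!
The shift in EM models over `Ω ×ₗ Blk σ`.
-/

set_option linter.unusedSectionVars false

universe u

open FirstOrder Cardinal Set

namespace Vale.Agent.P307.R2.H68

open Vale.Agent.P307 Vale.Agent.P307.H304 Vale.Agent.P307.R2.H287 Vale.Agent.P307.R2.H1
  Vale.Agent.P307.R2.H806 Language.Structure Language.Substructure

variable {L : Language.{u, u}} {K : AEC L} {ℓ : Cardinal.{u}} {κf : Cardinal.{u} → Cardinal.{u}}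

theorem exists_finset_term_of_mem {t : Tpl K ℓ} {J : Type u} [LinearOrder J] (F : EM t J)
    {W : Set J} {z : F.N} (hz : z ∈ hull F W) :
    ∃ (w : Finset J) (s : (exLang L t.Λ).Term w), (∀ q ∈ w, q ∈ W) ∧
      s.realize (fun q : w => F.c q.1) = z := by
  classical
  obtain ⟨s, hs⟩ := (mem_closure_image_iff F.c W z).1 hz
  let b : Finset J := s.varFinset.map ⟨Subtype.val, Subtype.val_injective⟩
  have hb : ∀ q ∈ b, q ∈ W := by
    intro q hq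
    obtain ⟨p, -, rfl⟩ := Finset.mem_map.1 hq
    exact p.2
  let s₁ : (exLang L t.Λ).Term s.varFinset := s.restrictVar id
  have hs₁ : s₁.realize (fun q : s.varFinset => F.c q.1.1) = z := by
    rw [← hs]
    exact Language.Term.realize_restrictVar (fun q : W => F.c q) (fun q => rfl)
  refine ⟨b, s₁.relabel fun q => ⟨q.1.1, Finset.mem_map.2 ⟨q.1, q.2, rfl⟩⟩, hb, ?_⟩
  rw [Language.Term.realize_relabel, ← hs₁]
  rfl

theorem mk_sigma_finset_le {σ : Cardinal.{u}} (hσ : ℵ₀ ≤ σ) {J ι : Type u} (w : ι → Finset J)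
    (hι : #ι ≤ σ) : #(Σ i, (w i : Set J)) ≤ σ := by
  rw [mk_sigma]
  refine (sum_le_mk_mul_iSup _).trans ?_
  refine (mul_le_mul' hι (ciSup_le' fun i => ?_)).trans (mul_eq_self hσ).le
  exact (lt_aleph0_of_finite _).le.trans hσ

/-- **The shift**, general form. -/
theorem exists_shift_hull' (hK : K.IsLS ℓ) (hunb : ∀ ν, ν < κf ν ∧ K.CategoricalIn (κf ν))
    {σ μ : Cardinal.{u}} (hℓ : ℓ ≤ σ) (hσμ : σ ≤ μ) {t : Tpl K ℓ} {Ω : Type u} [LinearOrder Ω]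
    [WellFoundedLT Ω] (F : EM t (Ω ×ₗ Blk σ)) (hF : thr κf μ ≤ #F.N) (G : Set Ω)
    {ι ζ : Type u} (hι : #ι ≤ σ) (hζ : #ζ ≤ σ) (S S' : ι → Set Ω)
    (hS : ∀ i, ∀ x ∈ S i, ∃ g ∈ S' i, IsLeast {g | g ∈ G ∧ x ≤ g} g)
    (m : ζ → F.N) (hm : ∀ j, m j ∈ hull F (part G))
    (r : ι → F.N) (hr : ∀ i, r i ∈ hull F (part (S i))) :
    ∃ r' : ι → F.N, (∀ i, r' i ∈ hull F (part (S' i ∩ G))) ∧
      EqS L μ (Sum.elim m r) (Sum.elim m r') := by
  have hσ : ℵ₀ ≤ σ := t.hν.trans hℓ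
  choose wm sm hwm hsm using fun j => exists_finset_term_of_mem F (hm j)
  choose wr sr hwr hsr using fun i => exists_finset_term_of_mem F (hr i)
  have hP : #(Σ j, (wm j : Set (Ω ×ₗ Blk σ))) ≤ σ := mk_sigma_finset_le hσ wm hζ
  have hQ : #(Σ i, (wr i : Set (Ω ×ₗ Blk σ))) ≤ σ := mk_sigma_finset_le hσ wr hι
  let v : (Σ j, (wm j : Set (Ω ×ₗ Blk σ))) → Ω ×ₗ Blk σ := fun p => p.2.1
  let w : (Σ i, (wr i : Set (Ω ×ₗ Blk σ))) → Ω ×ₗ Blk σ := fun p => p.2.1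
  have hw : ∀ q, ∃ g ∈ S' q.1, IsLeast {g | g ∈ G ∧ (ofLex (w q)).1 ≤ g} g := fun q =>
    hS q.1 _ (hwr q.1 _ q.2.2)
  obtain ⟨w', h1, -, h3⟩ := exists_shift hσ G hP hQ v w (fun p => hwm p.1 _ p.2.2)
    (fun q => by
      obtain ⟨g, -, hg⟩ := hw q
      exact ⟨g, hg.1⟩)
  have h1' : ∀ q, w' q ∈ (part (S' q.1 ∩ G) : Set (Ω ×ₗ Blk σ)) := by
    intro q
    obtain ⟨g, hgS, hg⟩ := hw q
    have h4 := (h1 q).unique hg
    rw [mem_part, h4]
    exact ⟨hgS, hg.1.1⟩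
  let fm : ∀ j, wm j → (Σ j, (wm j : Set (Ω ×ₗ Blk σ))) := fun j k => ⟨j, k.1, k.2⟩
  let fr : ∀ i, wr i → (Σ i, (wr i : Set (Ω ×ₗ Blk σ))) := fun i k => ⟨i, k.1, k.2⟩
  let s : ζ ⊕ ι → (exLang L t.Λ).Term ((Σ j, (wm j : Set (Ω ×ₗ Blk σ))) ⊕
      (Σ i, (wr i : Set (Ω ×ₗ Blk σ)))) :=
    Sum.elim (fun j => (sm j).relabel fun k => Sum.inl (fm j k))
      (fun i => (sr i).relabel fun k => Sum.inr (fr i k))
  have hPQ : #((Σ j, (wm j : Set (Ω ×ₗ Blk σ))) ⊕ (Σ i, (wr i : Set (Ω ×ₗ Blk σ)))) ≤ μ := by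
    rw [mk_sum, lift_id, lift_id]
    exact ((add_le_add hP hQ).trans (add_eq_self hσ).le).trans hσμ
  have hζι : #(ζ ⊕ ι) ≤ μ := by
    rw [mk_sum, lift_id, lift_id]
    exact ((add_le_add hζ hι).trans (add_eq_self hσ).le).trans hσμ
  have h4 := eqS_pat hK hunb (hℓ.trans hσμ) F F hF hF hPQ (Sum.elim v w) (Sum.elim v w') h3
    hζι s
  have h5 : (fun x => (s x).realize fun q => F.c (Sum.elim v w q)) = Sum.elim m r := by
    funext x
    rcases x with j | i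
    · change ((sm j).relabel fun k => Sum.inl (fm j k)).realize _ = m j
      rw [Language.Term.realize_relabel, ← hsm j]
      rfl
    · change ((sr i).relabel fun k => Sum.inr (fr i k)).realize _ = r i
      rw [Language.Term.realize_relabel, ← hsr i]
      rfl
  have h6 : (fun x => (s x).realize fun q => F.c (Sum.elim v w' q)) =
      Sum.elim m (fun i => (sr i).realize fun k => F.c (w' (fr i k))) := by
    funext x
    rcases x with j | i
    · change ((sm j).relabel fun k => Sum.inl (fm j k)).realize _ = m j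
      rw [Language.Term.realize_relabel, ← hsm j]
      rfl
    · change ((sr i).relabel fun k => Sum.inr (fr i k)).realize _ = _
      rw [Language.Term.realize_relabel]
      rfl
  refine ⟨fun i => (sr i).realize fun k => F.c (w' (fr i k)), fun i => ?_, ?_⟩
  · exact (mem_closure_image_iff F.c _ _).2 ⟨(sr i).relabel fun k => ⟨w' (fr i k), h1' (fr i k)⟩, by
      rw [Language.Term.realize_relabel]
      rfl⟩
  · rw [h5, h6] at h4
    exact h4

/-- **The shift.** -/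
theorem exists_shift_hull (hK : K.IsLS ℓ) (hunb : ∀ ν, ν < κf ν ∧ K.CategoricalIn (κf ν))
    {σ μ : Cardinal.{u}} (hℓ : ℓ ≤ σ) (hσμ : σ ≤ μ) {t : Tpl K ℓ} {Ω : Type u} [LinearOrder Ω]
    [WellFoundedLT Ω] (F : EM t (Ω ×ₗ Blk σ)) (hF : thr κf μ ≤ #F.N) (G : Set Ω)
    {ι ζ : Type u} (hι : #ι ≤ σ) (hζ : #ζ ≤ σ) (S : ι → Set Ω)
    (hS : ∀ i, ∀ x ∈ S i, ∃ g ∈ S i, IsLeast {g | g ∈ G ∧ x ≤ g} g)
    (m : ζ → F.N) (hm : ∀ j, m j ∈ hull F (part G))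
    (r : ι → F.N) (hr : ∀ i, r i ∈ hull F (part (S i))) :
    ∃ r' : ι → F.N, (∀ i, r' i ∈ hull F (part (S i ∩ G))) ∧
      EqS L μ (Sum.elim m r) (Sum.elim m r') :=
  exists_shift_hull' hK hunb hℓ hσμ F hF G hι hζ S S hS m hm r hr

end Vale.Agent.P307.R2.H68
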