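import Vale.Agent.P307.R2.H68.Shift
import Vale.Agent.P307.R2.H806.Std

/-!
The EM model over `θ⁺ ×ₗ B` is saturated.
-/

set_option linter.unusedSectionVars false

universe u

open FirstOrder Cardinal Set

namespace Vale.Agent.P307.R2.H68

open Vale.Agent.P307 Vale.Agent.P307.H304 Vale.Agent.P307.R2.H287 Vale.Agent.P307.R2.H1
  Vale.Agent.P307.R2.H806 Vale.Agent.P307.R2.H971 Language.Structure Language.Substructure

variable {L : Language.{u, u}} {K : AEC L} {ℓ θ T ν : Cardinal.{u}}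
  {κf : Cardinal.{u} → Cardinal.{u}}

theorem mk_part_le {Ω B : Type u} [LinearOrder Ω] {σ : Cardinal.{u}} (hσ : ℵ₀ ≤ σ) {G : Set Ω}
    (hG : #G ≤ σ) (hB : #B ≤ σ) : #(part G : Set (Ω ×ₗ B)) ≤ σ := by
  rw [mk_part]
  exact (mul_le_mul' hG hB).trans (mul_eq_self hσ).le

theorem le_mk_part {Ω B : Type u} [LinearOrder Ω] [Nonempty B] {σ : Cardinal.{u}} {G : Set Ω}
    (hG : σ ≤ #G) : σ ≤ #(part G : Set (Ω ×ₗ B)) := by
  rw [mk_part]
  refine hG.trans (le_mul_right ?_)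
  exact mk_ne_zero B

/-- The EM model over `θ⁺ ×ₗ B` is saturated. -/
theorem sat_em_prod (hAB : AB K θ T) (hK : K.IsLS ℓ) (hℓ : ℓ ≤ θ) (hext : LargeExt K θ T)
    (t : Tpl K ν) (hν : ν ≤ θ) {B : Type u} [LinearOrder B] [Nonempty B] (hB : #B ≤ θ)
    (E : EM t (SuccTy θ ×ₗ B)) : Sat K θ E.N := by
  have hθ : ℵ₀ ≤ θ := hK.1.trans hℓ
  refine sat_em_gen hAB hK hℓ hext t hν (fun V hV => ?_) E
  obtain ⟨i, hi, hic⟩ := exists_bound hθ ((fun j : SuccTy θ ×ₗ B => (ofLex j).1) '' V)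
    (mk_image_le.trans hV)
  let Ω : Type u := SuccTy (max θ T)
  have h1 : Ordinal.type (α := SuccTy θ) (· < ·) ≤ Ordinal.type (α := Ω) (· < ·) := by
    rw [Ordinal.type_toType, Ordinal.type_toType]
    exact ord_le_ord.2 (Order.succ_le_succ (le_max_left _ _))
  obtain ⟨emb⟩ := Ordinal.type_le_iff.1 h1
  have hemb : StrictMono emb := fun a b hab => emb.map_rel_iff.2 hab
  refine ⟨part (Iio i), Ω ×ₗ B, inferInstance,
    fun v => toLex (emb (ofLex v.1).1, (ofLex v.1).2), ?_, ?_, ?_, ?_, ?_⟩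
  · intro x hx
    exact hi _ ⟨x, hx, rfl⟩
  · exact le_antisymm (mk_part_le hθ hic.le hB) (le_mk_part hic.ge)
  · intro x y hxy
    have h2 : x.1 < y.1 := hxy
    rcases Prod.Lex.lt_iff.1 h2 with h | h
    · exact Prod.Lex.lt_iff.2 (Or.inl (hemb h))
    · exact Prod.Lex.lt_iff.2 (Or.inr ⟨congrArg emb h.1, h.2⟩)
  · have h2 : T ≤ #Ω := by
      change T ≤ #((Order.succ (max θ T)).ord.ToType)
      rw [mk_toType, card_ord]
      exact (le_max_right _ _).trans (Order.le_succ _)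
    have h3 : #(Ω ×ₗ B) = #(Ω × B) := rfl
    rw [h3, mk_prod, lift_id, lift_id]
    exact h2.trans (le_mul_right (mk_ne_zero B))
  · intro Y hY hYe
    let Y₁ : Set Ω := (fun j : Ω ×ₗ B => (ofLex j).1) '' Y
    have hY₁ : #Y₁ ≤ θ := mk_image_le.trans hY
    have hx : ∀ x < i, emb x ∈ Y₁ := by
      intro x hx
      refine ⟨toLex (emb x, Classical.arbitrary B), hYe ⟨⟨toLex (x, Classical.arbitrary B), hx⟩,
        rfl⟩, rfl⟩
    obtain ⟨τ, hτ, hτ'⟩ := exists_collapse emb i Y₁ hY₁ hx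
    refine ⟨fun y => toLex (τ ⟨(ofLex y.1).1, ⟨y.1, y.2, rfl⟩⟩, (ofLex y.1).2), ?_, ?_⟩
    · intro x y hxy
      have h2 : x.1 < y.1 := hxy
      rcases Prod.Lex.lt_iff.1 h2 with h | h
      · exact Prod.Lex.lt_iff.2 (Or.inl (hτ h))
      · refine Prod.Lex.lt_iff.2 (Or.inr ⟨?_, h.2⟩)
        change τ _ = τ _
        congr 1
        exact Subtype.ext h.1
    · intro v hv
      have h2 : (ofLex v.1).1 < i := v.2
      have h3 := hτ' (ofLex v.1).1 h2
      change toLex (τ ⟨emb (ofLex v.1).1, _⟩, (ofLex v.1).2) = v.1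
      rw [h3]
      rfl

/-- **The chart.** The saturated member of size `θ⁺` is the EM model over `θ⁺ ×ₗ B`, with a given
strong submodel of size `θ` in the position of `part (Iic i)`. -/
theorem exists_chart (hAB : AB K θ T) (hK : K.IsLS ℓ) (hℓ : ℓ ≤ θ) (hcat : K.CategoricalIn θ)
    (hext : LargeExt K θ T) (t : Tpl K ν) (hν : ν ≤ θ) {B : Type u} [LinearOrder B] [Nonempty B]
    (hB : #B ≤ θ) {C : Type u} [L.Structure C] (hs : Sat K θ C) (hCc : #C = Order.succ θ)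
    (D : L.Substructure C) (hD : K.le D) (hDc : #D = θ) :
    ∃ (E : EM t (SuccTy θ ×ₗ B)) (e : E.N ≃[L] C) (i : SuccTy θ),
      #(Iic i) = θ ∧ (D : Set C) = e '' (hullL E (part (Iic i)) : Set E.N) := by
  have hθ : ℵ₀ ≤ θ := hK.1.trans hℓ
  obtain ⟨E⟩ := exists_em t (SuccTy θ ×ₗ B)
  obtain ⟨i, -, hic⟩ := exists_bound hθ (∅ : Set (SuccTy θ)) (by simp)
  have hic' : #(Iic i) = θ := by
    refine le_antisymm ?_ (hic.symm.le.trans (mk_le_mk_of_subset Iio_subset_Iic_self))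
    rw [← Iio_insert]
    exact mk_insert_le.trans (add_le_of_le hθ hic.le (one_le_aleph0.trans hθ))
  have hEs := sat_em_prod hAB hK hℓ hext t hν hB E
  have hEc : #E.N = Order.succ θ := by
    refine E.card_eq (hν.trans (Order.le_succ θ)) ?_
    have h3 : #(SuccTy θ ×ₗ B) = #(SuccTy θ × B) := rfl
    rw [h3, mk_prod, lift_id, lift_id, mk_toType, card_ord]
    exact mul_eq_left (hθ.trans (Order.le_succ θ)) (hB.trans (Order.le_succ θ)) (mk_ne_zero B)
  let D' : L.Substructure E.N := hullL E (part (Iic i))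
  have hD' : K.le D' := le_hullL E _
  have hDc' : #D' = θ := le_antisymm (mk_hullL_le E hν (mk_part_le hθ hic'.le hB))
    (le_mk_hullL E (le_mk_part hic'.ge))
  obtain ⟨f⟩ := hcat.2 D' D (K.mem_of_le _ hD').1 (K.mem_of_le _ hD).1 hDc' hDc
  obtain ⟨e, he⟩ := hEs.exists_iso hK hℓ hs hEc hCc D'.subtype (D.subtype.comp f.toEmbedding)
    (AEC.emb_subtype.2 hD') (AEC.Emb.comp (AEC.emb_subtype.2 hD)
      (AEC.Emb.of_equiv f (K.mem_of_le _ hD').1)) hDc'
  refine ⟨E, e, i, hic', ?_⟩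
  ext x
  constructor
  · intro hx
    refine ⟨(f.symm ⟨x, hx⟩ : D'), (f.symm ⟨x, hx⟩ : D').2, ?_⟩
    have h1 := he (f.symm ⟨x, hx⟩)
    refine h1.trans ?_
    change ((f (f.symm ⟨x, hx⟩) : D) : C) = x
    rw [f.apply_symm_apply]
  · rintro ⟨z, hz, rfl⟩
    have h1 := he ⟨z, hz⟩
    have h2 : e z = (f ⟨z, hz⟩ : C) := h1
    rw [h2]
    exact (f ⟨z, hz⟩).2

end Vale.Agent.P307.R2.H68
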