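import Vale.Agent.P307.R2.H68.SatB

/-!
The EM model over `(θ⁺ + 1) ×ₗ B` is saturated; charts with a top block.
-/

set_option linter.unusedSectionVars false

universe u

open FirstOrder Cardinal Set

namespace Vale.Agent.P307.R2.H68

open Vale.Agent.P307 Vale.Agent.P307.H304 Vale.Agent.P307.R2.H287 Vale.Agent.P307.R2.H1
  Vale.Agent.P307.R2.H806 Vale.Agent.P307.R2.H971 Language.Structure Language.Substructure

variable {L : Language.{u, u}} {K : AEC L} {ℓ θ T ν : Cardinal.{u}}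
  {κf : Cardinal.{u} → Cardinal.{u}}

theorem exists_wt_map {A B : Type u} [LinearOrder A] [LinearOrder B] {Y : Set (WithTop A)}
    (τ : ((fun a : A => (a : WithTop A)) ⁻¹' Y : Set A) → B) (hτ : StrictMono τ) :
    ∃ τ' : Y → WithTop B, StrictMono τ' ∧
      (∀ (a : A) (h : (a : WithTop A) ∈ Y), τ' ⟨a, h⟩ = (τ ⟨a, h⟩ : WithTop B)) ∧
      ∀ h : (⊤ : WithTop A) ∈ Y, τ' ⟨⊤, h⟩ = ⊤ := by
  have hg : ∀ y : Y, ∃ z : WithTop B, (∀ (a : A) (h : y.1 = a), z = (τ ⟨a, by
      change (a : WithTop A) ∈ Y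
      rw [← h]
      exact y.2⟩ : WithTop B)) ∧ (y.1 = ⊤ → z = ⊤) := by
    rintro ⟨y, hy⟩
    induction y using WithTop.recTopCoe with
    | top => exact ⟨⊤, fun a h => absurd h (WithTop.coe_ne_top).symm, fun _ => rfl⟩
    | coe a =>
      refine ⟨(τ ⟨a, hy⟩ : WithTop B), fun b h => ?_, fun h => absurd h WithTop.coe_ne_top⟩
      have h1 : a = b := WithTop.coe_injective h
      subst h1
      rfl
  choose g hg1 hg2 using hg
  refine ⟨g, ?_, fun a h => hg1 _ a rfl, fun h => hg2 _ rfl⟩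
  rintro ⟨x, hx⟩ ⟨y, hy⟩ hxy
  have h0 : x < y := hxy
  induction x using WithTop.recTopCoe with
  | top => exact absurd h0 not_top_lt
  | coe a =>
    rw [hg1 _ a rfl]
    induction y using WithTop.recTopCoe with
    | top =>
      rw [hg2 _ rfl]
      exact WithTop.coe_lt_top _
    | coe b =>
      rw [hg1 _ b rfl]
      have hab : a < b := WithTop.coe_lt_coe.1 h0
      exact WithTop.coe_lt_coe.2 (hτ (a := ⟨a, hx⟩) (b := ⟨b, hy⟩) hab)

/-- The EM model over `(θ⁺ + 1) ×ₗ B` is saturated. -/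
theorem sat_em_top (hAB : AB K θ T) (hK : K.IsLS ℓ) (hℓ : ℓ ≤ θ) (hext : LargeExt K θ T)
    (t : Tpl K ν) (hν : ν ≤ θ) {B : Type u} [LinearOrder B] [Nonempty B] (hB : #B ≤ θ)
    (E : EM t (WithTop (SuccTy θ) ×ₗ B)) : Sat K θ E.N := by
  have hθ : ℵ₀ ≤ θ := hK.1.trans hℓ
  have h1θ : (1 : Cardinal.{u}) ≤ θ := one_le_aleph0.trans hθ
  refine sat_em_gen hAB hK hℓ hext t hν (fun V hV => ?_) E
  obtain ⟨i, hi, hic⟩ := exists_bound hθ ((fun a : SuccTy θ => (a : WithTop (SuccTy θ))) ⁻¹'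
    ((fun j : WithTop (SuccTy θ) ×ₗ B => (ofLex j).1) '' V))
    ((mk_preimage_of_injective _ _ WithTop.coe_injective).trans (mk_image_le.trans hV))
  let Ω : Type u := SuccTy (max θ T)
  have h1 : Ordinal.type (α := SuccTy θ) (· < ·) ≤ Ordinal.type (α := Ω) (· < ·) := by
    rw [Ordinal.type_toType, Ordinal.type_toType]
    exact ord_le_ord.2 (Order.succ_le_succ (le_max_left _ _))
  obtain ⟨emb⟩ := Ordinal.type_le_iff.1 h1
  have hemb : StrictMono emb := fun a b hab => emb.map_rel_iff.2 hab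
  have hemb' : StrictMono (WithTop.map emb) := hemb.withTop_map
  let S : Set (WithTop (SuccTy θ)) := insert ⊤ ((WithTop.some : SuccTy θ → WithTop (SuccTy θ)) '' Iio i)
  have hS : #S = θ := by
    refine le_antisymm (mk_insert_le.trans (add_le_of_le hθ (mk_image_le.trans hic.le) h1θ)) ?_
    refine hic.symm.le.trans ?_
    rw [← mk_image_eq (f := (WithTop.some : SuccTy θ → WithTop (SuccTy θ))) (s := Iio i)
      WithTop.coe_injective]
    exact mk_le_mk_of_subset (subset_insert _ _)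
  refine ⟨part S, WithTop Ω ×ₗ B, inferInstance,
    fun v => toLex (WithTop.map emb (ofLex v.1).1, (ofLex v.1).2), ?_, ?_, ?_, ?_, ?_⟩
  · intro x hx
    change (ofLex x).1 ∈ S
    rcases h : (ofLex x).1 with _ | a
    · exact Or.inl rfl
    · refine Or.inr ⟨a, hi a ?_, rfl⟩
      exact ⟨x, hx, h⟩
  · exact le_antisymm (mk_part_le hθ hS.le hB) (le_mk_part hS.ge)
  · intro x y hxy
    have h2 : x.1 < y.1 := hxy
    rcases Prod.Lex.lt_iff.1 h2 with h | h
    · exact Prod.Lex.lt_iff.2 (Or.inl (hemb' h))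
    · exact Prod.Lex.lt_iff.2 (Or.inr ⟨congrArg (WithTop.map emb) h.1, h.2⟩)
  · have h2 : T ≤ #Ω := by
      change T ≤ #((Order.succ (max θ T)).ord.ToType)
      rw [mk_toType, card_ord]
      exact (le_max_right _ _).trans (Order.le_succ _)
    have h2' : #Ω ≤ #(WithTop Ω) := mk_le_of_injective (f := fun a : Ω => (a : WithTop Ω))
      WithTop.coe_injective
    have h3 : #(WithTop Ω ×ₗ B) = #(WithTop Ω × B) := rfl
    rw [h3, mk_prod, lift_id, lift_id]
    exact (h2.trans h2').trans (le_mul_right (mk_ne_zero B))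
  · intro Y hY hYe
    let Y₁ : Set (WithTop Ω) := (fun j : WithTop Ω ×ₗ B => (ofLex j).1) '' Y
    have hY₁ : #Y₁ ≤ θ := mk_image_le.trans hY
    let Y₂ : Set Ω := (fun a : Ω => (a : WithTop Ω)) ⁻¹' Y₁
    have hY₂ : #Y₂ ≤ θ := (mk_preimage_of_injective _ _ WithTop.coe_injective).trans hY₁
    have hx : ∀ x < i, emb x ∈ Y₂ := by
      intro x hx
      refine ⟨toLex ((emb x : WithTop Ω), Classical.arbitrary B), hYe
        ⟨⟨toLex ((x : WithTop (SuccTy θ)), Classical.arbitrary B), Or.inr ⟨x, hx, rfl⟩⟩,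
        rfl⟩, rfl⟩
    obtain ⟨τ, hτ, hτ'⟩ := exists_collapse emb i Y₂ hY₂ hx
    obtain ⟨τ', h4, h5, h6⟩ := exists_wt_map τ hτ
    refine ⟨fun y => toLex (τ' ⟨(ofLex y.1).1, ⟨y.1, y.2, rfl⟩⟩, (ofLex y.1).2), ?_, ?_⟩
    · intro x y hxy
      have h2 : x.1 < y.1 := hxy
      rcases Prod.Lex.lt_iff.1 h2 with h | h
      · exact Prod.Lex.lt_iff.2 (Or.inl (h4 h))
      · refine Prod.Lex.lt_iff.2 (Or.inr ⟨?_, h.2⟩)
        change τ' _ = τ' _
        congr 1
        exact Subtype.ext h.1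
    · rintro ⟨v, hvS⟩ hv
      have hvS' : (ofLex v).1 ∈ S := hvS
      change toLex (τ' ⟨WithTop.map emb (ofLex v).1, _⟩, (ofLex v).2) = v
      suffices h7 : ∀ h, τ' ⟨WithTop.map emb (ofLex v).1, h⟩ = (ofLex v).1 from
        congrArg (fun z => toLex (z, (ofLex v).2)) (h7 _)
      rcases hvS' with h | ⟨a, ha, h⟩
      · rw [h]
        exact h6
      · rw [← h]
        intro h'
        exact (h5 (emb a) h').trans (congrArg _ (hτ' a ha))

/-- The position of a strong submodel in the chart. -/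
def base (i : SuccTy θ) : Set (WithTop (SuccTy θ)) :=
  insert ⊤ ((WithTop.some : SuccTy θ → WithTop (SuccTy θ)) '' Iic i)

/-- **The chart** with a top block. -/
theorem exists_chart_top (hAB : AB K θ T) (hK : K.IsLS ℓ) (hℓ : ℓ ≤ θ) (hcat : K.CategoricalIn θ)
    (hext : LargeExt K θ T) (t : Tpl K ν) (hν : ν ≤ θ) {B : Type u} [LinearOrder B] [Nonempty B]
    (hB : #B ≤ θ) {C : Type u} [L.Structure C] (hs : Sat K θ C) (hCc : #C = Order.succ θ)
    (D : L.Substructure C) (hD : K.le D) (hDc : #D = θ) :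
    ∃ (E : EM t (WithTop (SuccTy θ) ×ₗ B)) (e : E.N ≃[L] C) (i : SuccTy θ),
      (D : Set C) = e '' (hullL E (part (base i)) : Set E.N) := by
  have hθ : ℵ₀ ≤ θ := hK.1.trans hℓ
  have h1θ : (1 : Cardinal.{u}) ≤ θ := one_le_aleph0.trans hθ
  obtain ⟨E⟩ := exists_em t (WithTop (SuccTy θ) ×ₗ B)
  obtain ⟨i, -, hic⟩ := exists_bound hθ (∅ : Set (SuccTy θ)) (by simp)
  have hic' : #(Iic i) = θ := by
    refine le_antisymm ?_ (hic.symm.le.trans (mk_le_mk_of_subset Iio_subset_Iic_self))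
    rw [← Iio_insert]
    exact mk_insert_le.trans (add_le_of_le hθ hic.le h1θ)
  have hbc : #(base i) = θ := by
    refine le_antisymm (mk_insert_le.trans (add_le_of_le hθ (mk_image_le.trans hic'.le) h1θ)) ?_
    refine hic'.symm.le.trans ?_
    rw [← mk_image_eq (f := (WithTop.some : SuccTy θ → WithTop (SuccTy θ))) (s := Iic i)
      WithTop.coe_injective]
    exact mk_le_mk_of_subset (subset_insert _ _)
  have hEs := sat_em_top hAB hK hℓ hext t hν hB E
  have hEc : #E.N = Order.succ θ := by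
    refine E.card_eq (hν.trans (Order.le_succ θ)) ?_
    have h3 : #(WithTop (SuccTy θ) ×ₗ B) = #(WithTop (SuccTy θ) × B) := rfl
    have h4 : #(WithTop (SuccTy θ)) = Order.succ θ := by
      change #(Option (SuccTy θ)) = Order.succ θ
      rw [mk_option, mk_toType, card_ord]
      exact add_one_eq (hθ.trans (Order.le_succ θ))
    rw [h3, mk_prod, lift_id, lift_id, h4]
    exact mul_eq_left (hθ.trans (Order.le_succ θ)) (hB.trans (Order.le_succ θ)) (mk_ne_zero B)
  let D' : L.Substructure E.N := hullL E (part (base i))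
  have hD' : K.le D' := le_hullL E _
  have hDc' : #D' = θ := le_antisymm (mk_hullL_le E hν (mk_part_le hθ hbc.le hB))
    (le_mk_hullL E (le_mk_part hbc.ge))
  obtain ⟨f⟩ := hcat.2 D' D (K.mem_of_le _ hD').1 (K.mem_of_le _ hD).1 hDc' hDc
  obtain ⟨e, he⟩ := hEs.exists_iso hK hℓ hs hEc hCc D'.subtype (D.subtype.comp f.toEmbedding)
    (AEC.emb_subtype.2 hD') (AEC.Emb.comp (AEC.emb_subtype.2 hD)
      (AEC.Emb.of_equiv f (K.mem_of_le _ hD').1)) hDc'
  refine ⟨E, e, i, ?_⟩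
  ext x
  constructor
  · intro hx
    refine ⟨(f.symm ⟨x, hx⟩ : D'), (f.symm ⟨x, hx⟩ : D').2, ?_⟩
    have h1 := he (f.symm ⟨x, hx⟩)
    refine h1.trans ?_
    change ((f (f.symm ⟨x, hx⟩) : D) : C) = x
    rw [f.apply_symm_apply]
  · rintro ⟨z, hz, rfl⟩
    have h1 := he ⟨z, hz⟩
    have h2 : e z = (f ⟨z, hz⟩ : C) := h1
    rw [h2]
    exact (f ⟨z, hz⟩).2

end Vale.Agent.P307.R2.H68
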