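import Vale.Agent.P307.R2.H68.Ec
import Vale.Agent.P307.R2.H68.SatT

/-!
Closed sets and finite continuity along closed sets.
-/

set_option linter.unusedSectionVars false

universe u

open FirstOrder Cardinal Set

namespace Vale.Agent.P307.R2.H68

open Vale.Agent.P307 Vale.Agent.P307.H304 Vale.Agent.P307.R2.H287 Vale.Agent.P307.R2.H1
  Vale.Agent.P307.R2.H806 Vale.Agent.P307.R2.H971 Vale.Agent.P307.R2.H541
  Language.Structure Language.Substructure

variable {L : Language.{u, u}} {K : AEC L} {ℓ θ : Cardinal.{u}}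
  {κf α : Cardinal.{u} → Cardinal.{u}} {C : Type u} [L.Structure C]

theorem exists_ub {ι : Type*} [Preorder ι] [IsDirectedOrder ι] [Nonempty ι] {J : Type*}
    (w : Finset J) (f : J → ι) : ∃ i, ∀ j ∈ w, f j ≤ i := by
  classical
  induction w using Finset.induction_on with
  | empty => exact ⟨Classical.arbitrary ι, by simp⟩
  | insert a s ha ih =>
    obtain ⟨i, hi⟩ := ih
    obtain ⟨k, h1, h2⟩ := exists_ge_ge i (f a)
    refine ⟨k, fun j hj => ?_⟩
    rcases Finset.mem_insert.1 hj with rfl | hj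
    · exact h2
    · exact (hi j hj).trans h1

section

variable (h₀ : BasePt K ℓ κf α θ) (hK : K.IsLS ℓ)
  (hunb : ∀ ν, ν < κf ν ∧ K.CategoricalIn (κf ν)) (hst : Stab K ℓ α (H287.thr κf))
  (hCm : K.mem C) (hs : Sat K θ C) (hCc : #C = Order.succ θ)

include h₀ hK hunb hst hCm hs hCc

/-- The shift by automorphisms of `C`, general form. -/
theorem exists_shift_aut' {σ : Cardinal.{u}} (hσ : ℓ ≤ σ) (hσθ : σ < θ) {t : Tpl K ℓ} {Ω : Type u}
    [LinearOrder Ω] [WellFoundedLT Ω] (F : EM t (Ω ×ₗ Blk σ)) (hF : θ ≤ #F.N)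
    (e : F.N ↪[L] C) (he : K.Emb e) (G : Set Ω) {ι ζ : Type u} (hι : #ι ≤ σ) (hζ : #ζ ≤ σ)
    (S S' : ι → Set Ω) (hS : ∀ i, ∀ x ∈ S i, ∃ g ∈ S' i, IsLeast {g | g ∈ G ∧ x ≤ g} g)
    (m : ζ → F.N) (hm : ∀ j, m j ∈ hull F (part G))
    (r : ι → F.N) (hr : ∀ i, r i ∈ hull F (part (S i))) :
    ∃ g ∈ autG L C, (∀ j, g (e (m j)) = e (m j)) ∧
      ∀ i, ∃ x ∈ hull F (part (S' i ∩ G)), g (e (r i)) = e x := by
  have hσ0 : ℵ₀ ≤ σ := hK.1.trans hσ
  have hσα : σ ≤ α σ := (hst σ hσ).1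
  have hthr : H287.thr κf (α σ) ≤ #F.N := (h₀.pt.thr _ (h₀.al σ hσθ)).le.trans hF
  obtain ⟨r', h1, h2⟩ := exists_shift_hull' hK hunb hσ hσα F hthr G hι hζ S S' hS m hm r hr
  have hc : #(ζ ⊕ ι) ≤ σ := by
    rw [mk_sum, lift_id, lift_id]
    exact (add_le_add hζ hι).trans (add_eq_self hσ0).le
  have h3 := EqS.map_emb hK hunb (hσ.trans hσα) e he hthr (hc.trans hσα) (Sum.elim m r)
  have h4 := EqS.map_emb hK hunb (hσ.trans hσα) e he hthr (hc.trans hσα) (Sum.elim m r')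
  have h5 : EqS L (α σ) (fun x => e (Sum.elim m r x)) (fun x => e (Sum.elim m r' x)) :=
    (h3.symm.trans h2).trans h4
  obtain ⟨g, hg, hg'⟩ := exists_mem_autG h₀ hK hunb hst hCm hs hCc hσ hσθ hc _ _ h5
  exact ⟨g, hg, fun j => hg' (Sum.inl j), fun i => ⟨r' i, h1 i, hg' (Sum.inr i)⟩⟩

/-- **Closed sets.** For every strong submodel `A` of size `θ` and every small `d` there is a
finitary closure such that
* for every closed `H` the sets `H` and `A ∩ H` are strong submodels, and pieces of `A` of size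
  `d` can be moved into `A ∩ H` over pieces of `H` of size `d`;
* for every directed family of closed sets `H i` with union `H` and every `b` (finite, or of size
  `≤ d` if the family is `d⁺`-directed) there is `i` such that `b` can be moved into `A ∩ H i`
  over pieces of `A ∩ H`, and similarly with `C` in place of `A`. -/
theorem exists_closure {A : Set C} (hA : A ∈ (pg h₀ hK hunb hst hCm hs hCc).S) {d : Cardinal.{u}}
    (hd : d < θ) :
    ∃ φ : Finset C → Set C, (∀ s, #(φ s) ≤ 2 ^ max ℓ d) ∧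
      (∀ H : Set C, Clo φ H →
        (∃ D : L.Substructure C, K.le D ∧ (D : Set C) = H) ∧
        (∃ D : L.Substructure C, K.le D ∧ (D : Set C) = A ∩ H) ∧
        ∀ X ⊆ A, #X ≤ d → ∀ q ⊆ H, #q ≤ d →
          ∃ g ∈ autG L C, (∀ x ∈ q, g x = x) ∧ ∀ x ∈ X, g x ∈ A ∩ H) ∧
      ∀ (ι : Type u) [Preorder ι] [IsDirectedOrder ι] [Nonempty ι] (H : ι → Set C), Monotone H →
        (∀ i, Clo φ (H i)) → ∀ b : Set C, #b ≤ d → (∀ f : b → ι, ∃ i, ∀ x, f x ≤ i) →
        (∃ i, ∀ q ⊆ A ∩ ⋃ j, H j, #q ≤ d →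
          ∃ g ∈ autG L C, (∀ x ∈ q, g x = x) ∧ ∀ x ∈ b, g x ∈ A ∩ H i) ∧
        ∃ i, ∀ q ⊆ ⋃ j, H j, #q ≤ d →
          ∃ g ∈ autG L C, (∀ x ∈ q, g x = x) ∧ ∀ x ∈ b, g x ∈ H i := by
  classical
  have hθ := aleph0_le_pt h₀ hK
  let σ : Cardinal.{u} := max ℓ d
  have hσ : ℓ ≤ σ := le_max_left _ _
  have hdσ : d ≤ σ := le_max_right _ _
  have hσθ : σ < θ := max_lt h₀.pt.lt hd
  have hσ0 : ℵ₀ ≤ σ := hK.1.trans hσ
  have h2σ : ℵ₀ ≤ 2 ^ σ := hσ0.trans (cantor σ).le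
  obtain ⟨D, hD, hDc, rfl⟩ := hA
  obtain ⟨t⟩ := exists_tpl' hK hunb
  obtain ⟨E, e, i₀, hDe⟩ := exists_chart_top h₀.ab hK h₀.pt.lt.le h₀.pt.cat
    (h₀.largeExt hK hunb _) t h₀.pt.lt.le (B := Blk σ)
    ((mk_blk hσ0).trans (h₀.pow σ hσθ).le) hs hCc D hD hDc
  -- supports
  have hsup : ∀ x : C, ∃ w : Finset (WithTop (SuccTy θ) ×ₗ Blk σ),
      e.symm x ∈ hull E (w : Set _) := by
    intro x
    have h1 : e.symm x ∈ hull E (univ : Set (WithTop (SuccTy θ) ×ₗ Blk σ)) := by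
      change e.symm x ∈ closure (exLang L t.Λ) (E.c '' univ)
      rw [image_univ, E.top]
      trivial
    obtain ⟨w, s, -, hs⟩ := exists_finset_term_of_mem E h1
    exact ⟨w, (mem_closure_image_iff E.c _ _).2 ⟨s, hs⟩⟩
  choose w hw using hsup
  let pr : WithTop (SuccTy θ) ×ₗ Blk σ → WithTop (SuccTy θ) := fun j => (ofLex j).1
  let G₀ : Set C → Set (WithTop (SuccTy θ)) := fun H =>
    insert ⊤ (insert (i₀ : WithTop (SuccTy θ)) (⋃ x ∈ H, pr '' (w x : Set _)))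
  let ψ : Set C → Set C := fun H => e '' (hull E (part (G₀ H)) : Set E.N)
  have hG₀m : ∀ {H H' : Set C}, H ⊆ H' → G₀ H ⊆ G₀ H' := fun h =>
    insert_subset_insert (insert_subset_insert (biUnion_subset_biUnion_left h))
  have hG₀ : ∀ s : Finset C, #(G₀ s) ≤ ℵ₀ := by
    intro s
    have h1 : (G₀ s).Finite := by
      refine Set.Finite.insert _ (Set.Finite.insert _ ?_)
      refine Set.Finite.biUnion s.finite_toSet fun x _ => ?_
      exact (w x).finite_toSet.image _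
    exact h1.lt_aleph0.le
  have hsub : ∀ H : Set C, H ⊆ ψ H := by
    intro H x hx
    refine ⟨e.symm x, hull_mono E ?_ (hw x), e.apply_symm_apply x⟩
    intro j hj
    exact Or.inr (Or.inr (mem_biUnion hx ⟨j, hj, rfl⟩))
  have hclo : ∀ H : Set C, Clo (fun s => ψ (s : Set C)) H → H = ψ H := by
    intro H hH
    refine (hsub H).antisymm ?_
    rintro _ ⟨z, hz, rfl⟩
    obtain ⟨v, s, hv, hs⟩ := exists_finset_term_of_mem E hz
    -- the elements of `H` responsible for the support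
    have h1 : ∀ j ∈ v, ∃ x : Option C, (∀ y ∈ x, y ∈ H) ∧
        (pr j = ⊤ ∨ pr j = i₀ ∨ ∃ y ∈ x, pr j ∈ pr '' (w y : Set _)) := by
      intro j hj
      rcases hv j hj with h | h | h
      · exact ⟨none, by simp, Or.inl h⟩
      · exact ⟨none, by simp, Or.inr (Or.inl h)⟩
      · obtain ⟨y, hy, hy'⟩ := mem_iUnion₂.1 h
        exact ⟨some y, fun z hz => by cases hz; exact hy, Or.inr (Or.inr ⟨y, rfl, hy'⟩)⟩
    choose! f hf1 hf2 using h1
    let s' : Finset C := v.biUnion fun j => (f j).toFinset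
    have hs' : (s' : Set C) ⊆ H := by
      intro y hy
      obtain ⟨j, hj, hy⟩ := Finset.mem_biUnion.1 (Finset.mem_coe.1 hy)
      exact hf1 j hj y (Option.mem_toFinset.1 hy)
    refine hH s' hs' ⟨z, hull_mono E ?_ ((mem_closure_image_iff E.c _ _).2 ⟨s, hs⟩), rfl⟩
    intro j hj
    rcases hf2 j hj with h | h | ⟨y, hy, h⟩
    · exact Or.inl h
    · exact Or.inr (Or.inl h)
    · refine Or.inr (Or.inr (mem_biUnion (x := y) ?_ h))
      exact Finset.mem_coe.2 (Finset.mem_biUnion.2 ⟨j, hj, Option.mem_toFinset.2 hy⟩)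
  have hmap : ∀ W : Set (WithTop (SuccTy θ) ×ₗ Blk σ), ∃ D' : L.Substructure C, K.le D' ∧
      (D' : Set C) = e '' (hull E W : Set E.N) := by
    intro W
    exact ⟨(hullL E W).map e.toHom, K.le_iso e _ (le_hullL E W), rfl⟩
  have hEc : θ ≤ #E.N := by
    rw [mk_congr e.toEquiv, hCc]
    exact Order.le_succ θ
  -- the shift in terms of `C`
  have key : ∀ (G : Set (WithTop (SuccTy θ))) (X : Set C) (S S' : C → Set (WithTop (SuccTy θ))),
      (∀ x ∈ X, ∀ y ∈ S x, ∃ g ∈ S' x, IsLeast {g | g ∈ G ∧ y ≤ g} g) →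
      (∀ x ∈ X, e.symm x ∈ hull E (part (S x))) → #X ≤ σ →
      ∀ q ⊆ e '' (hull E (part G) : Set E.N), #q ≤ σ →
      ∃ g ∈ autG L C, (∀ x ∈ q, g x = x) ∧
        ∀ x ∈ X, g x ∈ e '' (hull E (part (S' x ∩ G)) : Set E.N) := by
    intro G X S S' hSS hX hXc q hq hqc
    have h2 : ∀ x : q, e.symm x.1 ∈ hull E (part G) := by
      intro x
      obtain ⟨z, hz, hzx⟩ := hq x.2
      rw [← hzx, e.symm_apply_apply]
      exact hz
    obtain ⟨g, hg, hg1, hg2⟩ := exists_shift_aut' h₀ hK hunb hst hCm hs hCc hσ hσθ E hEc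
      e.toEmbedding (AEC.Emb.of_equiv e E.mem) G hXc hqc (fun x : X => S x) (fun x : X => S' x)
      (fun x => hSS x x.2) (fun x : q => e.symm x.1) h2 (fun x : X => e.symm x.1)
      (fun x => hX x x.2)
    refine ⟨g, hg, fun x hx => ?_, fun x hx => ?_⟩
    · have h3 := hg1 ⟨x, hx⟩
      change g (e (e.symm x)) = e (e.symm x) at h3
      rwa [e.apply_symm_apply] at h3
    · obtain ⟨z, hz, hz'⟩ := hg2 ⟨x, hx⟩
      change g (e (e.symm x)) = e z at hz'
      rw [e.apply_symm_apply] at hz'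
      exact ⟨z, hz, hz'.symm⟩
  have hleast : ∀ (G : Set (WithTop (SuccTy θ))) (y : WithTop (SuccTy θ)), ⊤ ∈ G →
      ∃ g ∈ G, IsLeast {g | g ∈ G ∧ y ≤ g} g := by
    intro G y hG
    have hne : {g | g ∈ G ∧ y ≤ g}.Nonempty := ⟨⊤, hG, le_top⟩
    exact ⟨wellFounded_lt.min _ hne, (wellFounded_lt.min_mem _ hne).1,
      wellFounded_lt.min_mem _ _, fun z hz => not_lt.1 (wellFounded_lt.not_lt_min _ hz)⟩
  have hbase : ∀ x ∈ base i₀, x = ⊤ ∨ x ≤ i₀ := by
    rintro x (h | ⟨a, ha, rfl⟩)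
    · exact Or.inl h
    · exact Or.inr (WithTop.coe_le_coe.2 ha)
  have hbase' : ∀ x, x ≤ (i₀ : WithTop (SuccTy θ)) → x ∈ base i₀ := by
    intro x hx
    induction x using WithTop.recTopCoe with
    | top => exact Or.inl rfl
    | coe a => exact Or.inr ⟨a, WithTop.coe_le_coe.1 hx, rfl⟩
  have hgood : ∀ (H : Set C), ∀ x ∈ base i₀, ∃ g ∈ base i₀, IsLeast {g | g ∈ G₀ H ∧ x ≤ g} g := by
    intro H x hx
    obtain ⟨g, -, hg⟩ := hleast (G₀ H) x (Or.inl rfl)
    refine ⟨g, ?_, hg⟩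
    rcases hbase x hx with h | h
    · have h1 : g = ⊤ := top_le_iff.1 (h ▸ hg.1.2)
      exact Or.inl h1
    · exact hbase' g (hg.2 ⟨Or.inr (Or.inl rfl), h⟩)
  have hint : ∀ H : Set C, Clo (fun s => ψ (s : Set C)) H →
      (D : Set C) ∩ H = e '' (hull E (part (base i₀ ∩ G₀ H)) : Set E.N) := by
    intro H hH
    have hHe := hclo H hH
    apply Subset.antisymm
    · rintro x ⟨hxD, hxH⟩
      have h1 : ∀ y ∈ ({x} : Set C), e.symm y ∈ hull E (part (base i₀)) := by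
        rintro y rfl
        rw [hDe] at hxD
        obtain ⟨z, hz, hzx⟩ := hxD
        rw [← hzx, e.symm_apply_apply]
        exact hz
      obtain ⟨g, -, hg1, hg2⟩ := key (G₀ H) {x} (fun _ => base i₀) (fun _ => base i₀)
        (fun _ _ => hgood H) h1 (by
          rw [mk_singleton]
          exact one_le_aleph0.trans hσ0) {x} (by
          rw [singleton_subset_iff]
          exact hsub H hxH) (by
          rw [mk_singleton]
          exact one_le_aleph0.trans hσ0)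
      have h2 := hg2 x rfl
      rwa [hg1 x rfl] at h2
    · rintro _ ⟨z, hz, rfl⟩
      constructor
      · rw [hDe]
        exact ⟨z, hull_mono E (part_mono inter_subset_left) hz, rfl⟩
      · rw [hHe]
        exact ⟨z, hull_mono E (part_mono inter_subset_right) hz, rfl⟩
  refine ⟨fun s => ψ s, fun s => ?_, fun H hH => ?_, fun ι _ _ _ H hHm hH b hb hbι => ?_⟩
  · refine mk_image_le.trans ?_
    refine mk_hullL_le E (hσ.trans (cantor σ).le) ?_
    exact mk_part_le h2σ ((hG₀ s).trans h2σ) (mk_blk hσ0)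
  · have hHe := hclo H hH
    refine ⟨?_, ?_, ?_⟩
    · obtain ⟨D', h1, h2⟩ := hmap (part (G₀ H))
      exact ⟨D', h1, h2.trans hHe.symm⟩
    · obtain ⟨D', h1, h2⟩ := hmap (part (base i₀ ∩ G₀ H))
      exact ⟨D', h1, h2.trans (hint H hH).symm⟩
    · intro X hX hXc q hq hqc
      have h1 : ∀ y ∈ X, e.symm y ∈ hull E (part (base i₀)) := by
        intro y hy
        have hyD := hX hy
        rw [hDe] at hyD
        obtain ⟨z, hz, hzx⟩ := hyD
        rw [← hzx, e.symm_apply_apply]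
        exact hz
      obtain ⟨g, hg, hg1, hg2⟩ := key (G₀ H) X (fun _ => base i₀) (fun _ => base i₀)
        (fun _ _ => hgood H) h1 (hXc.trans hdσ) q (hq.trans (hsub H)) (hqc.trans hdσ)
      exact ⟨g, hg, hg1, fun x hx => by
        rw [hint H hH]
        exact hg2 x hx⟩
  · -- the union
    let U : Set C := ⋃ j, H j
    have hU : Clo (fun s => ψ (s : Set C)) U := Clo.iUnion hHm.directed_le hH
    have hUe := hclo U hU
    have hGU : ∀ g ∈ G₀ U, ∃ i, g ∈ G₀ (H i) := by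
      rintro g (h | h | h)
      · exact ⟨Classical.arbitrary ι, Or.inl h⟩
      · exact ⟨Classical.arbitrary ι, Or.inr (Or.inl h)⟩
      · obtain ⟨y, hy, hy'⟩ := mem_iUnion₂.1 h
        obtain ⟨i, hi⟩ := mem_iUnion.1 hy
        exact ⟨i, Or.inr (Or.inr (mem_biUnion hi hy'))⟩
    -- the general statement
    have main : ∀ S : Set (WithTop (SuccTy θ)), ⊤ ∈ S → ∃ i,
        ∀ q ⊆ e '' (hull E (part (S ∩ G₀ U)) : Set E.N), #q ≤ d →
        ∃ g ∈ autG L C, (∀ x ∈ q, g x = x) ∧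
          ∀ x ∈ b, g x ∈ e '' (hull E (part (S ∩ G₀ (H i))) : Set E.N) := by
      intro S hS
      have h1 : ∀ y : WithTop (SuccTy θ), ∃ i, ∃ g ∈ S ∩ G₀ (H i),
          IsLeast {g | g ∈ S ∩ G₀ U ∧ y ≤ g} g := by
        intro y
        obtain ⟨g, hg, hg'⟩ := hleast (S ∩ G₀ U) y ⟨hS, Or.inl rfl⟩
        obtain ⟨i, hi⟩ := hGU g hg.2
        exact ⟨i, g, ⟨hg.1, hi⟩, hg'⟩
      choose f hf using h1
      have h2 : ∀ x : b, ∃ i, ∀ j ∈ w x.1, f (pr j) ≤ i := fun x =>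
        exists_ub (w x.1) fun j => f (pr j)
      choose k hk using h2
      obtain ⟨i, hi⟩ := hbι k
      refine ⟨i, fun q hq hqc => ?_⟩
      let Sw : C → Set (WithTop (SuccTy θ)) := fun x =>
        pr '' (w x : Set (WithTop (SuccTy θ) ×ₗ Blk σ))
      let Sv : C → Set (WithTop (SuccTy θ)) := fun _ => S ∩ G₀ (H i)
      have h5 : ∀ x ∈ b, ∀ y ∈ Sw x, ∃ g ∈ Sv x,
          IsLeast {g | g ∈ S ∩ G₀ U ∧ y ≤ g} g := by
        rintro x hx _ ⟨j, hj, rfl⟩
        obtain ⟨g, hg, hg'⟩ := hf (pr j)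
        have h5 : f (pr j) ≤ i := (hk ⟨x, hx⟩ j hj).trans (hi ⟨x, hx⟩)
        exact ⟨g, ⟨hg.1, hG₀m (hHm h5) hg.2⟩, hg'⟩
      have h6 : ∀ x ∈ b, e.symm x ∈ hull E (part (Sw x)) := by
        intro x _
        have h7 : (w x : Set (WithTop (SuccTy θ) ×ₗ Blk σ)) ⊆ part (Sw x) :=
          fun j hj => mem_image_of_mem pr hj
        exact hull_mono E h7 (hw x)
      obtain ⟨g, hg, hg1, hg2⟩ := key (S ∩ G₀ U) b Sw Sv h5 h6 (hb.trans hdσ) q hq
        (hqc.trans hdσ)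
      refine ⟨g, hg, hg1, fun x hx => ?_⟩
      have h8 : (hull E (part (Sv x ∩ (S ∩ G₀ U))) : Set E.N) ⊆ hull E (part (S ∩ G₀ (H i))) :=
        hull_mono E (part_mono inter_subset_left)
      exact image_mono h8 (hg2 x hx)
    constructor
    · obtain ⟨i, hi⟩ := main (base i₀) (Or.inl rfl)
      refine ⟨i, fun q hq hqc => ?_⟩
      rw [hint U hU] at hq
      obtain ⟨g, hg, hg1, hg2⟩ := hi q hq hqc
      exact ⟨g, hg, hg1, fun x hx => by
        rw [hint (H i) (hH i)]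
        exact hg2 x hx⟩
    · obtain ⟨i, hi⟩ := main univ (mem_univ _)
      refine ⟨i, fun q hq hqc => ?_⟩
      have h3 : q ⊆ e '' (hull E (part (univ ∩ G₀ U)) : Set E.N) := by
        rw [univ_inter]
        exact hq.trans (hsub U)
      obtain ⟨g, hg, hg1, hg2⟩ := hi q h3 hqc
      refine ⟨g, hg, hg1, fun x hx => ?_⟩
      have h4 := hg2 x hx
      rw [univ_inter] at h4
      rw [hclo (H i) (hH i)]
      exact h4

end

end Vale.Agent.P307.R2.H68
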