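import Vale.Agent.P307.R2.H806.Tail

/-!
Orders `Ω ×ₗ B` with `B` of large coinitiality and universal: the shift of the points outside a
closed set (helper945's J-trick).
-/

set_option linter.unusedSectionVars false

universe u

open FirstOrder Cardinal Set

namespace Vale.Agent.P307.R2.H68

open Vale.Agent.P307

/-- A linear order containing all orders of size at most `σ`, in which the cuts of size at most `σ`
are filled. -/
abbrev UTy (σ : Cardinal.{u}) : Type u := SignSeq σ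

theorem exists_strictMono_uTy {σ : Cardinal.{u}} (hσ : ℵ₀ ≤ σ) (X : Type u) [LinearOrder X]
    (hX : #X ≤ σ) : ∃ g : X → UTy σ, StrictMono g := by
  obtain ⟨W', -, h2, -, h4⟩ := OrdPat.exists_extend hσ (nice_signSeq hσ)
    (W := (∅ : Set (X × SignSeq σ))) (fun p hp => absurd hp (Set.notMem_empty p))
    (by simp) univ (by rwa [mk_univ])
  choose g hg using fun x => h4 x trivial
  exact ⟨g, fun x y hxy => (h2.lt_iff (hg x) (hg y)).1 hxy⟩

theorem mk_uTy {σ : Cardinal.{u}} (hσ : ℵ₀ ≤ σ) : #(UTy σ) ≤ 2 ^ σ := by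
  classical
  have h1 : #(SuccTy σ) ≤ 2 ^ σ := by
    rw [mk_toType, card_ord]
    exact Order.succ_le_of_lt (cantor σ)
  have h2 : ℵ₀ ≤ 2 ^ σ := hσ.trans (cantor σ).le
  let F : SignSeq σ → Σ β : SuccTy σ, (Iio β → SignType) := fun f =>
    ⟨f.2.choose, fun γ => (ofLex f.1) γ⟩
  have hF : Function.Injective F := by
    intro f g hfg
    have h3 : f.2.choose = g.2.choose := congrArg Sigma.fst hfg
    have h4 : ∀ γ, γ < f.2.choose → (ofLex f.1) γ = (ofLex g.1) γ := by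
      intro γ hγ
      have h5 : ∀ (β β' : SuccTy σ) (u : Iio β → SignType) (u' : Iio β' → SignType),
          (⟨β, u⟩ : Σ β : SuccTy σ, (Iio β → SignType)) = ⟨β', u'⟩ →
          ∀ (hβ : γ < β) (hβ' : γ < β'), u ⟨γ, hβ⟩ = u' ⟨γ, hβ'⟩ := by
        rintro β β' u u' h hβ hβ'
        obtain rfl : β = β' := congrArg Sigma.fst h
        rw [eq_of_heq (Sigma.mk.inj h).2]
      exact h5 _ _ _ _ hfg hγ (h3 ▸ hγ)
    refine Subtype.ext ?_
    change f.1 = g.1
    refine congrArg toLex (a₁ := ofLex f.1) (a₂ := ofLex g.1) (funext fun γ => ?_)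
    rcases lt_or_ge γ f.2.choose with h5 | h5
    · exact h4 γ h5
    · rw [f.2.choose_spec γ h5, g.2.choose_spec γ (h3 ▸ h5)]
  refine (mk_le_of_injective hF).trans ?_
  rw [mk_sigma]
  refine (sum_le_sum _ (fun _ => 2 ^ σ) fun β => ?_).trans ?_
  · rw [mk_arrow, lift_uzero]
    have h3 : #(Iio β) ≤ σ := mk_Iio_succTy β
    have h4 : lift.{u} #SignType ≤ 2 ^ σ := (lift_lt_aleph0.2 (lt_aleph0_of_finite _)).le.trans h2
    refine (Cardinal.power_le_power_right h4).trans ?_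
    rw [← power_mul]
    exact power_le_power_left two_ne_zero ((mul_le_mul' le_rfl h3).trans (mul_eq_self hσ).le)
  · rw [sum_const']
    exact (mul_le_mul' h1 le_rfl).trans (mul_eq_self h2).le

/-- The block. -/
abbrev Blk (σ : Cardinal.{u}) : Type u := (SuccTy σ)ᵒᵈ ×ₗ UTy σ

theorem mk_blk {σ : Cardinal.{u}} (hσ : ℵ₀ ≤ σ) : #(Blk σ) ≤ 2 ^ σ := by
  have h1 : #(Blk σ) = #((SuccTy σ)ᵒᵈ × UTy σ) := rfl
  have h2 : #((SuccTy σ)ᵒᵈ) = #(SuccTy σ) := rfl
  rw [h1, mk_prod, lift_id, lift_id, h2, mk_toType, card_ord]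
  have h3 : Order.succ σ ≤ 2 ^ σ := Order.succ_le_of_lt (cantor σ)
  have h4 : ℵ₀ ≤ 2 ^ σ := hσ.trans (cantor σ).le
  exact (mul_le_mul' h3 (mk_uTy hσ)).trans (mul_eq_self h4).le

instance {σ : Cardinal.{u}} : Nonempty (SuccTy σ) := by
  have h : #(SuccTy σ) ≠ 0 := by
    rw [mk_toType, card_ord]
    exact (Order.bot_lt_succ σ).ne'
  exact mk_ne_zero_iff.1 h

instance {σ : Cardinal.{u}} : Nonempty (UTy σ) :=
  ⟨⟨toLex fun _ => 0, Classical.arbitrary _, fun _ _ => rfl⟩⟩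

instance {σ : Cardinal.{u}} : Nonempty (Blk σ) :=
  ⟨toLex (OrderDual.toDual (Classical.arbitrary (SuccTy σ)), Classical.arbitrary (UTy σ))⟩

/-- The cuts of size at most `σ` of a block are filled. -/
theorem nice_blk {σ : Cardinal.{u}} (hσ : ℵ₀ ≤ σ) : Nice σ (Blk σ) := by
  intro A B hA hB hAB
  rcases A.eq_empty_or_nonempty with rfl | hne
  · obtain ⟨ξ, hξ⟩ := exists_gt_of_small hσ
      ((fun j : Blk σ => OrderDual.ofDual (ofLex j).1) '' B) (mk_image_le.trans hB)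
    refine ⟨toLex (OrderDual.toDual ξ, Classical.arbitrary (UTy σ)), by simp, fun b hb => ?_⟩
    exact (Prod.Lex.lt_iff).2 (Or.inl (hξ _ ⟨b, hb, rfl⟩))
  · obtain ⟨ζ, ⟨a₀, ha₀, rfl⟩, hmin⟩ := WellFounded.has_min (wellFounded_lt (α := SuccTy σ))
      ((fun j : Blk σ => OrderDual.ofDual (ofLex j).1) '' A) (hne.image _)
    have hinj : Function.Injective (fun e : UTy σ => (toLex ((ofLex a₀).1, e) : Blk σ)) := by
      intro e e' h
      have h1 : ((ofLex a₀).1, e) = ((ofLex a₀).1, e') := toLex.injective h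
      exact (Prod.ext_iff.1 h1).2
    obtain ⟨e, he1, he2⟩ := nice_signSeq hσ
      ((fun e : UTy σ => (toLex ((ofLex a₀).1, e) : Blk σ)) ⁻¹' A)
      ((fun e : UTy σ => (toLex ((ofLex a₀).1, e) : Blk σ)) ⁻¹' B)
      ((mk_preimage_of_injective _ _ hinj).trans hA)
      ((mk_preimage_of_injective _ _ hinj).trans hB) (fun a ha b hb => by
        have h1 := hAB _ ha _ hb
        rw [Prod.Lex.lt_iff] at h1
        rcases h1 with h1 | h1
        · exact absurd h1 (lt_irrefl _)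
        · exact h1.2)
    refine ⟨toLex ((ofLex a₀).1, e), fun a ha => ?_, fun b hb => ?_⟩
    · have h0 : (ofLex a).1 ≤ (ofLex a₀).1 := not_lt.1 (hmin _ ⟨a, ha, rfl⟩)
      rw [Prod.Lex.lt_iff]
      rcases h0.lt_or_eq with h1 | h1
      · exact Or.inl h1
      · refine Or.inr ⟨h1, he1 _ ?_⟩
        have h2 : (toLex ((ofLex a₀).1, (ofLex a).2) : Blk σ) = a := by
          rw [← h1]
          rfl
        exact (congrArg (· ∈ A) h2).mpr ha
    · have h1 := hAB a₀ ha₀ b hb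
      rw [Prod.Lex.lt_iff] at h1 ⊢
      rcases h1 with h1 | h1
      · exact Or.inl h1
      · refine Or.inr ⟨h1.1, he2 _ ?_⟩
        have h2 : (toLex ((ofLex a₀).1, (ofLex b).2) : Blk σ) = b := by
          rw [h1.1]
          rfl
        exact (congrArg (· ∈ B) h2).mpr hb

variable {Ω : Type u} [LinearOrder Ω]

/-- The indices whose first coordinate is in `G`. -/
def part {B : Type u} (G : Set Ω) : Set (Ω ×ₗ B) := {j | (ofLex j).1 ∈ G}

theorem part_mono {B : Type u} {G G' : Set Ω} (h : G ⊆ G') :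
    (part G : Set (Ω ×ₗ B)) ⊆ part G' := fun _ hj => h hj

theorem mem_part {B : Type u} {G : Set Ω} {j : Ω ×ₗ B} : j ∈ part G ↔ (ofLex j).1 ∈ G := Iff.rfl

theorem mk_part {B : Type u} {G : Set Ω} : #(part G : Set (Ω ×ₗ B)) = #G * #B := by
  have e : (part G : Set (Ω ×ₗ B)) ≃ G × B :=
    { toFun := fun j => (⟨(ofLex j.1).1, j.2⟩, (ofLex j.1).2)
      invFun := fun p => ⟨toLex (p.1.1, p.2), p.1.2⟩
      left_inv := fun j => rfl
      right_inv := fun p => rfl }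
  rw [mk_congr e, mk_prod, lift_id, lift_id]

theorem part_iUnion {B : Type u} {ι : Type*} (G : ι → Set Ω) :
    (part (⋃ i, G i) : Set (Ω ×ₗ B)) = ⋃ i, part (G i) := by
  ext j
  simp [part]

/-- Points of `Ω` are moved up to `G`. -/
theorem exists_shift {σ : Cardinal.{u}} (hσ : ℵ₀ ≤ σ) [WellFoundedLT Ω] (G : Set Ω)
    {P Q : Type u} (hP : #P ≤ σ) (hQ : #Q ≤ σ) (v : P → Ω ×ₗ Blk σ) (w : Q → Ω ×ₗ Blk σ)
    (hv : ∀ p, v p ∈ part G) (hw : ∀ q, ∃ g ∈ G, (ofLex (w q)).1 ≤ g) :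
    ∃ w' : Q → Ω ×ₗ Blk σ, (∀ q, IsLeast {g | g ∈ G ∧ (ofLex (w q)).1 ≤ g} (ofLex (w' q)).1) ∧
      (∀ q, w q ∈ part G → w' q = w q) ∧
      ∀ x y : P ⊕ Q, Sum.elim v w x ≤ Sum.elim v w y ↔ Sum.elim v w' x ≤ Sum.elim v w' y := by
  classical
  -- the next point of `G`
  have hnx : ∀ a : Ω, ∃ b, (∃ g ∈ G, a ≤ g) → IsLeast {g | g ∈ G ∧ a ≤ g} b := by
    intro a
    by_cases h : ∃ g ∈ G, a ≤ g
    · obtain ⟨g, hg, hag⟩ := h
      have hne : {g | g ∈ G ∧ a ≤ g}.Nonempty := ⟨g, hg, hag⟩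
      refine ⟨wellFounded_lt.min _ hne, fun _ => ⟨wellFounded_lt.min_mem _ _, fun x hx => ?_⟩⟩
      exact not_lt.1 (wellFounded_lt.not_lt_min _ hx)
    · exact ⟨a, fun h' => absurd h' h⟩
  choose nx hnx using hnx
  let R : Set (Ω ×ₗ Blk σ) := range (Sum.elim v w)
  have hR : #R ≤ σ := by
    refine mk_range_le.trans ?_
    rw [mk_sum, lift_id, lift_id]
    exact (add_le_add hP hQ).trans (add_eq_self hσ).le
  obtain ⟨e, he⟩ := exists_strictMono_uTy hσ R hR
  obtain ⟨ξ, hξ⟩ := exists_gt_of_small hσ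
    ((fun j : Ω ×ₗ Blk σ => OrderDual.ofDual (ofLex (ofLex j).2).1) '' R)
    (mk_image_le.trans hR)
  have hξ' : ∀ y ∈ R, OrderDual.toDual ξ < (ofLex (ofLex y).2).1 := fun y hy =>
    hξ _ ⟨y, hy, rfl⟩
  have hex : ∀ y ∈ R, ∃ g ∈ G, (ofLex y).1 ≤ g := by
    rintro _ ⟨p | q, rfl⟩
    · exact ⟨_, hv p, le_rfl⟩
    · exact hw q
  let F : Ω ×ₗ Blk σ → Ω ×ₗ Blk σ := fun y => if h : y ∈ R ∧ y ∉ part G then
    toLex (nx (ofLex y).1, toLex (OrderDual.toDual ξ, e ⟨y, h.1⟩)) else y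
  have hFG : ∀ y, y ∈ part G → F y = y := fun y hy => dif_neg fun h => h.2 hy
  have hFn : ∀ y (hy : y ∈ R), y ∉ part G → F y =
      toLex (nx (ofLex y).1, toLex (OrderDual.toDual ξ, e ⟨y, hy⟩)) := fun y hy h => dif_pos ⟨hy, h⟩
  -- strictly above
  have hlt : ∀ y ∈ R, y ∉ part G → (ofLex y).1 < nx (ofLex y).1 := by
    intro y hy hyG
    have h1 := (hnx _ (hex y hy)).1
    refine lt_of_le_of_ne h1.2 fun h2 => hyG ?_
    change (ofLex y).1 ∈ G
    rw [h2]
    exact h1.1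
  have hF : ∀ y ∈ R, ∀ z ∈ R, y < z → F y < F z := by
    intro y hy z hz hyz
    have hyz1 : (ofLex y).1 ≤ (ofLex z).1 := by
      rcases (Prod.Lex.lt_iff).1 hyz with h | h
      · exact h.le
      · exact h.1.le
    by_cases h1 : y ∈ part G <;> by_cases h2 : z ∈ part G
    · rw [hFG y h1, hFG z h2]
      exact hyz
    · rw [hFG y h1, hFn z hz h2]
      refine (Prod.Lex.lt_iff).2 (Or.inl ?_)
      exact hyz1.trans_lt (hlt z hz h2)
    · rw [hFG z h2, hFn y hy h1]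
      have h3 : nx (ofLex y).1 ≤ (ofLex z).1 := (hnx _ (hex y hy)).2 ⟨h2, hyz1⟩
      rcases h3.lt_or_eq with h4 | h4
      · exact (Prod.Lex.lt_iff).2 (Or.inl h4)
      · refine (Prod.Lex.lt_iff).2 (Or.inr ⟨h4, ?_⟩)
        exact (Prod.Lex.lt_iff).2 (Or.inl (hξ' z hz))
    · rw [hFn y hy h1, hFn z hz h2]
      have h3 : nx (ofLex y).1 ≤ nx (ofLex z).1 := by
        have h4 := (hnx _ (hex z hz)).1
        exact (hnx _ (hex y hy)).2 ⟨h4.1, hyz1.trans h4.2⟩
      rcases h3.lt_or_eq with h4 | h4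
      · exact (Prod.Lex.lt_iff).2 (Or.inl h4)
      · refine (Prod.Lex.lt_iff).2 (Or.inr ⟨h4, ?_⟩)
        exact (Prod.Lex.lt_iff).2 (Or.inr ⟨rfl, he hyz⟩)
  refine ⟨fun q => F (w q), fun q => ?_, fun q hq => hFG _ hq, ?_⟩
  · have hq : w q ∈ R := ⟨Sum.inr q, rfl⟩
    by_cases h1 : w q ∈ part G
    · change IsLeast _ (ofLex (F (w q))).1
      rw [hFG _ h1]
      exact ⟨⟨h1, le_rfl⟩, fun x hx => hx.2⟩
    · change IsLeast _ (ofLex (F (w q))).1
      rw [hFn _ hq h1]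
      exact hnx _ (hex _ hq)
  · have h1 : ∀ x : P ⊕ Q, Sum.elim v (fun q => F (w q)) x = F (Sum.elim v w x) := by
      rintro (p | q)
      · exact (hFG _ (hv p)).symm
      · rfl
    intro x y
    rw [h1, h1]
    have hx : Sum.elim v w x ∈ R := ⟨x, rfl⟩
    have hy : Sum.elim v w y ∈ R := ⟨y, rfl⟩
    constructor
    · intro h
      rcases h.lt_or_eq with h | h
      · exact (hF _ hx _ hy h).le
      · rw [h]
    · intro h
      by_contra h2
      exact absurd (hF _ hy _ hx (not_le.1 h2)) h.not_gt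

end Vale.Agent.P307.R2.H68
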