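import Vale.Agent.P307.R2.H68.Fcl

/-!
Uniform form of the shift: the images lie in one small set.
-/

set_option linter.unusedSectionVars false

universe u

open FirstOrder Cardinal Set

namespace Vale.Agent.P307.R2.H68

open Vale.Agent.P307 Vale.Agent.P307.H304 Vale.Agent.P307.R2.H287 Vale.Agent.P307.R2.H1
  Vale.Agent.P307.R2.H806 Vale.Agent.P307.R2.H971 Vale.Agent.P307.R2.H541
  Language.Structure Language.Substructure

variable {L : Language.{u, u}} {K : AEC L} {ℓ θ : Cardinal.{u}}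
  {κf α : Cardinal.{u} → Cardinal.{u}} {C : Type u} [L.Structure C]

section

variable (h₀ : BasePt K ℓ κf α θ) (hK : K.IsLS ℓ)
  (hunb : ∀ ν, ν < κf ν ∧ K.CategoricalIn (κf ν)) (hst : Stab K ℓ α (H287.thr κf))
  (hCm : K.mem C) (hs : Sat K θ C) (hCc : #C = Order.succ θ)

include h₀ hK hunb hst hCm hs hCc

/-- **Uniform shift.** One small set `V` of indices in `G` receives the tuple `r` over all small
pieces of the hull of `G`. -/
theorem exists_shift_unif {σ : Cardinal.{u}} (hσ : ℓ ≤ σ) (hσθ : σ < θ) {t : Tpl K ℓ} {Ω : Type u}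
    [LinearOrder Ω] [WellFoundedLT Ω] (F : EM t (Ω ×ₗ Blk σ)) (hF : θ ≤ #F.N)
    (e : F.N ↪[L] C) (he : K.Emb e) (G : Set Ω) {ι : Type u} (hι : #ι ≤ σ)
    (S S' : ι → Set Ω) (hS : ∀ i, ∀ x ∈ S i, ∃ g ∈ S' i, IsLeast {g | g ∈ G ∧ x ≤ g} g)
    (r : ι → F.N) (hr : ∀ i, r i ∈ hull F (part (S i))) :
    ∃ V ⊆ G, #V ≤ σ ∧ ∀ (ζ : Type u) (m : ζ → F.N), #ζ ≤ σ → (∀ j, m j ∈ hull F (part G)) →
      ∃ g ∈ autG L C, (∀ j, g (e (m j)) = e (m j)) ∧
        ∀ i, ∃ x ∈ hull F (part (S' i ∩ V)), g (e (r i)) = e x := by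
  have hσ0 : ℵ₀ ≤ σ := hK.1.trans hσ
  choose w s hw hws using fun i => exists_finset_term_of_mem F (hr i)
  have hex : ∀ p : (Σ i, (w i : Set (Ω ×ₗ Blk σ))), ∃ g, g ∈ S' p.1 ∧
      IsLeast {g | g ∈ G ∧ (ofLex p.2.1).1 ≤ g} g := fun p => hS p.1 _ (hw p.1 _ p.2.2)
  choose n hn hn' using hex
  refine ⟨range n, ?_, mk_range_le.trans (mk_sigma_finset_le hσ0 w hι), ?_⟩
  · rintro _ ⟨p, rfl⟩
    exact (hn' p).1.1
  · intro ζ m hζ hm
    let pr : Ω ×ₗ Blk σ → Ω := fun j => (ofLex j).1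
    let T : ι → Set Ω := fun i => pr '' (w i : Set (Ω ×ₗ Blk σ))
    have hT : ∀ i, ∀ x ∈ T i, ∃ g ∈ S' i ∩ range n, IsLeast {g | g ∈ G ∧ x ≤ g} g := by
      rintro i _ ⟨j, hj, rfl⟩
      exact ⟨n ⟨i, j, hj⟩, ⟨hn ⟨i, j, hj⟩, ⟨i, j, hj⟩, rfl⟩, hn' ⟨i, j, hj⟩⟩
    have hrT : ∀ i, r i ∈ hull F (part (T i)) := by
      intro i
      have h1 : (w i : Set (Ω ×ₗ Blk σ)) ⊆ part (T i) := fun j hj => mem_image_of_mem pr hj
      exact hull_mono F h1 ((mem_closure_image_iff F.c _ _).2 ⟨s i, hws i⟩)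
    obtain ⟨g, hg, hg1, hg2⟩ := exists_shift_aut' h₀ hK hunb hst hCm hs hCc hσ hσθ F hF e he G hι
      hζ T (fun i => S' i ∩ range n) hT m hm r hrT
    refine ⟨g, hg, hg1, fun i => ?_⟩
    obtain ⟨x, hx, hx'⟩ := hg2 i
    exact ⟨x, hull_mono F (part_mono inter_subset_left) hx, hx'⟩

/-- **EC, uniform.** In addition to `exists_closure`: for closed `H`
* every `X ⊆ A` of size `≤ d` is moved into one small subset `q₀` of `A ∩ H`, over all the pieces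
  of `H` of size `≤ d`;
* every `X` of size `≤ d` is moved into one small subset `q₀` of `A ∩ H` (of `H`), over all the
  pieces of `A ∩ H` (of `H`) of size `≤ d`. -/
theorem exists_closure_unif {A : Set C} (hA : A ∈ (pg h₀ hK hunb hst hCm hs hCc).S)
    {d : Cardinal.{u}} (hd : d < θ) :
    ∃ φ : Finset C → Set C, (∀ s, #(φ s) ≤ 2 ^ max ℓ d) ∧
      ∀ H : Set C, Clo φ H →
        (∃ D : L.Substructure C, K.le D ∧ (D : Set C) = H) ∧
        (∃ D : L.Substructure C, K.le D ∧ (D : Set C) = A ∩ H) ∧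
        (∀ X ⊆ A, #X ≤ d → ∃ q₀ ⊆ A ∩ H, #q₀ ≤ 2 ^ max ℓ d ∧ ∀ q ⊆ H, #q ≤ d →
          ∃ g ∈ autG L C, (∀ x ∈ q, g x = x) ∧ ∀ x ∈ X, g x ∈ q₀) ∧
        (∀ X : Set C, #X ≤ d → ∃ q₀ ⊆ A ∩ H, #q₀ ≤ 2 ^ max ℓ d ∧ ∀ q ⊆ A ∩ H, #q ≤ d →
          ∃ g ∈ autG L C, (∀ x ∈ q, g x = x) ∧ ∀ x ∈ X, g x ∈ q₀) ∧
        ∀ X : Set C, #X ≤ d → ∃ q₀ ⊆ H, #q₀ ≤ 2 ^ max ℓ d ∧ ∀ q ⊆ H, #q ≤ d →
          ∃ g ∈ autG L C, (∀ x ∈ q, g x = x) ∧ ∀ x ∈ X, g x ∈ q₀ := by
  classical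
  have hθ := aleph0_le_pt h₀ hK
  let σ : Cardinal.{u} := max ℓ d
  have hσ : ℓ ≤ σ := le_max_left _ _
  have hdσ : d ≤ σ := le_max_right _ _
  have hσθ : σ < θ := max_lt h₀.pt.lt hd
  have hσ0 : ℵ₀ ≤ σ := hK.1.trans hσ
  have h2σ : ℵ₀ ≤ 2 ^ σ := hσ0.trans (cantor σ).le
  obtain ⟨D, hD, hDc, rfl⟩ := hA
  obtain ⟨t⟩ := exists_tpl' hK hunb
  obtain ⟨E, e, i₀, hDe⟩ := exists_chart_top h₀.ab hK h₀.pt.lt.le h₀.pt.cat
    (h₀.largeExt hK hunb _) t h₀.pt.lt.le (B := Blk σ)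
    ((mk_blk hσ0).trans (h₀.pow σ hσθ).le) hs hCc D hD hDc
  have hsup : ∀ x : C, ∃ w : Finset (WithTop (SuccTy θ) ×ₗ Blk σ),
      e.symm x ∈ hull E (w : Set _) := by
    intro x
    have h1 : e.symm x ∈ hull E (univ : Set (WithTop (SuccTy θ) ×ₗ Blk σ)) := by
      change e.symm x ∈ closure (exLang L t.Λ) (E.c '' univ)
      rw [image_univ, E.top]
      trivial
    obtain ⟨w, s, -, hs⟩ := exists_finset_term_of_mem E h1
    exact ⟨w, (mem_closure_image_iff E.c _ _).2 ⟨s, hs⟩⟩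
  choose w hw using hsup
  let pr : WithTop (SuccTy θ) ×ₗ Blk σ → WithTop (SuccTy θ) := fun j => (ofLex j).1
  let G₀ : Set C → Set (WithTop (SuccTy θ)) := fun H =>
    insert ⊤ (insert (i₀ : WithTop (SuccTy θ)) (⋃ x ∈ H, pr '' (w x : Set _)))
  let ψ : Set C → Set C := fun H => e '' (hull E (part (G₀ H)) : Set E.N)
  have hG₀ : ∀ s : Finset C, #(G₀ s) ≤ ℵ₀ := by
    intro s
    have h1 : (G₀ s).Finite := by
      refine Set.Finite.insert _ (Set.Finite.insert _ ?_)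
      refine Set.Finite.biUnion s.finite_toSet fun x _ => ?_
      exact (w x).finite_toSet.image _
    exact h1.lt_aleph0.le
  have hsub : ∀ H : Set C, H ⊆ ψ H := by
    intro H x hx
    refine ⟨e.symm x, hull_mono E ?_ (hw x), e.apply_symm_apply x⟩
    intro j hj
    exact Or.inr (Or.inr (mem_biUnion hx ⟨j, hj, rfl⟩))
  have hclo : ∀ H : Set C, Clo (fun s => ψ (s : Set C)) H → H = ψ H := by
    intro H hH
    refine (hsub H).antisymm ?_
    rintro _ ⟨z, hz, rfl⟩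
    obtain ⟨v, s, hv, hs⟩ := exists_finset_term_of_mem E hz
    have h1 : ∀ j ∈ v, ∃ x : Option C, (∀ y ∈ x, y ∈ H) ∧
        (pr j = ⊤ ∨ pr j = i₀ ∨ ∃ y ∈ x, pr j ∈ pr '' (w y : Set _)) := by
      intro j hj
      rcases hv j hj with h | h | h
      · exact ⟨none, by simp, Or.inl h⟩
      · exact ⟨none, by simp, Or.inr (Or.inl h)⟩
      · obtain ⟨y, hy, hy'⟩ := mem_iUnion₂.1 h
        exact ⟨some y, fun z hz => by cases hz; exact hy, Or.inr (Or.inr ⟨y, rfl, hy'⟩)⟩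
    choose! f hf1 hf2 using h1
    let s' : Finset C := v.biUnion fun j => (f j).toFinset
    have hs' : (s' : Set C) ⊆ H := by
      intro y hy
      obtain ⟨j, hj, hy⟩ := Finset.mem_biUnion.1 (Finset.mem_coe.1 hy)
      exact hf1 j hj y (Option.mem_toFinset.1 hy)
    refine hH s' hs' ⟨z, hull_mono E ?_ ((mem_closure_image_iff E.c _ _).2 ⟨s, hs⟩), rfl⟩
    intro j hj
    rcases hf2 j hj with h | h | ⟨y, hy, h⟩
    · exact Or.inl h
    · exact Or.inr (Or.inl h)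
    · refine Or.inr (Or.inr (mem_biUnion (x := y) ?_ h))
      exact Finset.mem_coe.2 (Finset.mem_biUnion.2 ⟨j, hj, Option.mem_toFinset.2 hy⟩)
  have hmap : ∀ W : Set (WithTop (SuccTy θ) ×ₗ Blk σ), ∃ D' : L.Substructure C, K.le D' ∧
      (D' : Set C) = e '' (hull E W : Set E.N) := by
    intro W
    exact ⟨(hullL E W).map e.toHom, K.le_iso e _ (le_hullL E W), rfl⟩
  have hEc : θ ≤ #E.N := by
    rw [mk_congr e.toEquiv, hCc]
    exact Order.le_succ θ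
  -- the shift in terms of `C`
  have key : ∀ (G : Set (WithTop (SuccTy θ))) (X : Set C) (S S' : Set (WithTop (SuccTy θ))),
      (∀ y ∈ S, ∃ g ∈ S', IsLeast {g | g ∈ G ∧ y ≤ g} g) →
      (∀ x ∈ X, e.symm x ∈ hull E (part S)) → #X ≤ σ →
      ∃ V ⊆ S' ∩ G, #V ≤ σ ∧
      ∀ q ⊆ e '' (hull E (part G) : Set E.N), #q ≤ σ →
      ∃ g ∈ autG L C, (∀ x ∈ q, g x = x) ∧
        ∀ x ∈ X, g x ∈ e '' (hull E (part V) : Set E.N) := by
    intro G X S S' hSS hX hXc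
    obtain ⟨V, hVG, hV, hV'⟩ := exists_shift_unif h₀ hK hunb hst hCm hs hCc hσ hσθ E hEc
      e.toEmbedding (AEC.Emb.of_equiv e E.mem) G hXc (fun _ : X => S) (fun _ : X => S')
      (fun _ => hSS) (fun x : X => e.symm x.1) (fun x => hX x x.2)
    refine ⟨S' ∩ V, inter_subset_inter_right _ hVG,
      (mk_le_mk_of_subset inter_subset_right).trans hV, ?_⟩
    intro q hq hqc
    have h2 : ∀ x : q, e.symm x.1 ∈ hull E (part G) := by
      intro x
      obtain ⟨z, hz, hzx⟩ := hq x.2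
      rw [← hzx, e.symm_apply_apply]
      exact hz
    obtain ⟨g, hg, hg1, hg2⟩ := hV' q (fun x : q => e.symm x.1) hqc h2
    refine ⟨g, hg, fun x hx => ?_, fun x hx => ?_⟩
    · have h3 := hg1 ⟨x, hx⟩
      change g (e (e.symm x)) = e (e.symm x) at h3
      rwa [e.apply_symm_apply] at h3
    · obtain ⟨z, hz, hz'⟩ := hg2 ⟨x, hx⟩
      change g (e (e.symm x)) = e z at hz'
      rw [e.apply_symm_apply] at hz'
      exact ⟨z, hz, hz'.symm⟩
  have hleast : ∀ (G : Set (WithTop (SuccTy θ))) (y : WithTop (SuccTy θ)), ⊤ ∈ G →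
      ∃ g ∈ G, IsLeast {g | g ∈ G ∧ y ≤ g} g := by
    intro G y hG
    have hne : {g | g ∈ G ∧ y ≤ g}.Nonempty := ⟨⊤, hG, le_top⟩
    exact ⟨wellFounded_lt.min _ hne, (wellFounded_lt.min_mem _ hne).1,
      wellFounded_lt.min_mem _ _, fun z hz => not_lt.1 (wellFounded_lt.not_lt_min _ hz)⟩
  have hbase : ∀ x ∈ base i₀, x = ⊤ ∨ x ≤ i₀ := by
    rintro x (h | ⟨a, ha, rfl⟩)
    · exact Or.inl h
    · exact Or.inr (WithTop.coe_le_coe.2 ha)
  have hbase' : ∀ x, x ≤ (i₀ : WithTop (SuccTy θ)) → x ∈ base i₀ := by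
    intro x hx
    induction x using WithTop.recTopCoe with
    | top => exact Or.inl rfl
    | coe a => exact Or.inr ⟨a, WithTop.coe_le_coe.1 hx, rfl⟩
  have hgood : ∀ (H : Set C), ∀ x ∈ base i₀, ∃ g ∈ base i₀, IsLeast {g | g ∈ G₀ H ∧ x ≤ g} g := by
    intro H x hx
    obtain ⟨g, -, hg⟩ := hleast (G₀ H) x (Or.inl rfl)
    refine ⟨g, ?_, hg⟩
    rcases hbase x hx with h | h
    · have h1 : g = ⊤ := top_le_iff.1 (h ▸ hg.1.2)
      exact Or.inl h1
    · exact hbase' g (hg.2 ⟨Or.inr (Or.inl rfl), h⟩)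
  have hXD : ∀ X ⊆ (D : Set C), ∀ y ∈ X, e.symm y ∈ hull E (part (base i₀)) := by
    intro X hX y hy
    have hyD := hX hy
    rw [hDe] at hyD
    obtain ⟨z, hz, hzx⟩ := hyD
    rw [← hzx, e.symm_apply_apply]
    exact hz
  have hint : ∀ H : Set C, Clo (fun s => ψ (s : Set C)) H →
      (D : Set C) ∩ H = e '' (hull E (part (base i₀ ∩ G₀ H)) : Set E.N) := by
    intro H hH
    have hHe := hclo H hH
    apply Subset.antisymm
    · rintro x ⟨hxD, hxH⟩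
      have h1c : #({x} : Set C) ≤ σ := by
        rw [mk_singleton]
        exact one_le_aleph0.trans hσ0
      obtain ⟨V, hV, -, hV'⟩ := key (G₀ H) {x} (base i₀) (base i₀) (hgood H)
        (hXD {x} (singleton_subset_iff.2 hxD)) h1c
      obtain ⟨g, -, hg1, hg2⟩ := hV' {x} (by
          rw [singleton_subset_iff]
          exact hsub H hxH) h1c
      have h2 := hg2 x rfl
      rw [hg1 x rfl] at h2
      exact image_mono (hull_mono E (part_mono hV)) h2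
    · rintro _ ⟨z, hz, rfl⟩
      constructor
      · rw [hDe]
        exact ⟨z, hull_mono E (part_mono inter_subset_left) hz, rfl⟩
      · rw [hHe]
        exact ⟨z, hull_mono E (part_mono inter_subset_right) hz, rfl⟩
  have hVc : ∀ V : Set (WithTop (SuccTy θ)), #V ≤ σ →
      #(e '' (hull E (part V) : Set E.N) : Set C) ≤ 2 ^ σ := by
    intro V hV
    refine mk_image_le.trans ?_
    refine mk_hullL_le E (hσ.trans (cantor σ).le) ?_
    exact mk_part_le h2σ (hV.trans (cantor σ).le) (mk_blk hσ0)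
  refine ⟨fun s => ψ s, fun s => ?_, fun H hH => ?_⟩
  · refine mk_image_le.trans ?_
    refine mk_hullL_le E (hσ.trans (cantor σ).le) ?_
    exact mk_part_le h2σ ((hG₀ s).trans h2σ) (mk_blk hσ0)
  · have hHe := hclo H hH
    let Xw : Set C → Set (WithTop (SuccTy θ)) := fun X =>
      ⋃ y ∈ X, pr '' (w y : Set (WithTop (SuccTy θ) ×ₗ Blk σ))
    have hXw : ∀ X : Set C, ∀ x ∈ X, e.symm x ∈ hull E (part (Xw X)) := by
      intro X x hx
      have h7 : (w x : Set (WithTop (SuccTy θ) ×ₗ Blk σ)) ⊆ part (Xw X) := fun j hj =>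
        mem_biUnion hx (mem_image_of_mem pr hj)
      exact hull_mono E h7 (hw x)
    have hG1 : ∀ X : Set C, ∀ y ∈ Xw X, ∃ g ∈ base i₀ ∩ G₀ H,
        IsLeast {g | g ∈ base i₀ ∩ G₀ H ∧ y ≤ g} g := fun X y _ =>
      hleast (base i₀ ∩ G₀ H) y ⟨Or.inl rfl, Or.inl rfl⟩
    have hG2 : ∀ X : Set C, ∀ y ∈ Xw X, ∃ g ∈ G₀ H, IsLeast {g | g ∈ G₀ H ∧ y ≤ g} g :=
      fun X y _ => hleast (G₀ H) y (Or.inl rfl)
    refine ⟨?_, ?_, ?_, ?_, ?_⟩
    · obtain ⟨D', h1, h2⟩ := hmap (part (G₀ H))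
      exact ⟨D', h1, h2.trans hHe.symm⟩
    · obtain ⟨D', h1, h2⟩ := hmap (part (base i₀ ∩ G₀ H))
      exact ⟨D', h1, h2.trans (hint H hH).symm⟩
    · intro X hX hXc
      obtain ⟨V, hV, hVσ, hV'⟩ := key (G₀ H) X (base i₀) (base i₀) (hgood H) (hXD X hX)
        (hXc.trans hdσ)
      refine ⟨e '' (hull E (part V) : Set E.N), ?_, hVc V hVσ, fun q hq hqc =>
        hV' q (hq.trans (hsub H)) (hqc.trans hdσ)⟩
      rw [hint H hH]
      exact image_mono (hull_mono E (part_mono hV))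
    · intro X hXc
      obtain ⟨V, hV, hVσ, hV'⟩ := key (base i₀ ∩ G₀ H) X (Xw X) (base i₀ ∩ G₀ H) (hG1 X)
        (hXw X) (hXc.trans hdσ)
      refine ⟨e '' (hull E (part V) : Set E.N), ?_, hVc V hVσ, fun q hq hqc =>
        hV' q ?_ (hqc.trans hdσ)⟩
      · rw [hint H hH]
        exact image_mono (hull_mono E (part_mono (hV.trans inter_subset_left)))
      · rw [← hint H hH]
        exact hq
    · intro X hXc
      obtain ⟨V, hV, hVσ, hV'⟩ := key (G₀ H) X (Xw X) (G₀ H) (hG2 X) (hXw X)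
        (hXc.trans hdσ)
      refine ⟨e '' (hull E (part V) : Set E.N), ?_, hVc V hVσ, fun q hq hqc =>
        hV' q (hq.trans (hsub H)) (hqc.trans hdσ)⟩
      have h8 : e '' (hull E (part V) : Set E.N) ⊆ ψ H :=
        image_mono (hull_mono E (part_mono (hV.trans inter_subset_left)))
      rwa [← hHe] at h8

end

end Vale.Agent.P307.R2.H68
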